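import Vale.Agent.P273.H883.Br1

/-!
Region1 (one node): uniqueness of the sheets near a point, openness of the admissible set,
coincidences of the marks.
-/

noncomputable section

namespace Vale.Agent.P273.H883

open Set Filter
open scoped Topology
open Vale.Agent.P273

variable {R : H95.Region1} {S : H95.L → Bool} {p0 p : R.Sp} {g0 g : ℂ} {v0 v v' : H95.L → ℂ}

theorem ok_ctr (h : R.ok S p g v) (l : Fin 4) : R.ctr p ≠ R.oth p l := (h.1 l).1
theorem ok_eps (h : R.ok S p g v) (l : Fin 4) :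
    ‖R.eps p‖ < ‖R.ctr p - R.oth p l‖ ^ 2 / 4096 := (h.1 l).2
theorem ok_inj (h : R.ok S p g v) : ∀ l l', R.oth p l = R.oth p l' → l = l' := h.2.1
theorem ok_sheet (h : R.ok S p g v) : R.isSheet S p g v := h.2.2.1
theorem ok_core (h : R.ok S p g v) {j : H95.L} (hj : R.nk j = false) : v j ≠ 0 ∧
    if S j then ‖R.eps p * R.pos p j ^ 2‖ < ‖1 - R.ctr p * R.pos p j‖ ^ 2 / 4
    else ‖R.eps p‖ < ‖R.pos p j - R.ctr p‖ ^ 2 / 4 := h.2.2.2.1 j hj
theorem ok_neck (h : R.ok S p g v) {j : H95.L} (hj : R.nk j = true) (l : Fin 4) :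
    ‖R.XX p (R.rk j)‖ < ‖R.ctr p - R.oth p l‖ / 8 ∧
      ‖R.YY p (R.rk j)‖ < ‖R.ctr p - R.oth p l‖ / 8 := h.2.2.2.2.1 j hj l
theorem ok_K6 (h : R.ok S p g v) : R.cf p ∈ H183.K6 := cf_mem_K6 h.1 h.2.1
theorem ok_K6' (h : R.ok S p g v) : R.cf p ∈ H95.K6 := H724.K6_eq ▸ ok_K6 h
theorem ok_sht_sq (hS : ∀ j, S j = true → R.nk j = false) (h : R.ok S p g v) (j : H95.L) :
    (R.sht p g v j) ^ 2 = H95.pol (S j) (R.cf p) (R.pos p j) :=
  sht_sq hS (ok_ctr h) (ok_sheet h) j

theorem sheet_ne (hs : R.isSheet S p g v) (h1 : ∀ l, R.ctr p ≠ R.oth p l) : g ≠ 0 := by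
  intro h
  have := hs.1
  rw [h, zero_pow two_ne_zero] at this
  exact Finset.prod_ne_zero_iff.2 (fun l _ => sub_ne_zero.2 (h1 l)) this.symm

/-- `sht` only depends on the sheets of the core marks. -/
theorem sht_congr (h : ∀ j, R.nk j = false → v j = v' j) (j : H95.L) :
    R.sht p g v j = R.sht p g v' j := by
  cases hj : R.nk j with
  | false => rw [sht_core hj, sht_core hj, h j hj]
  | true => rw [sht_neck hj, sht_neck hj]

theorem ok_congr (h : ∀ j, R.nk j = false → v j = v' j) (hk : R.ok S p g v) :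
    R.ok S p g v' := by
  obtain ⟨h1, h2, h3, h4, h5, h6, h7⟩ := hk
  refine ⟨h1, h2, ⟨h3.1, fun j hj => ?_⟩, fun j hj => ?_, h5, fun i j hij ht hn => ?_, h7⟩
  · rw [← h j hj]; exact h3.2 j hj
  · rw [← h j hj]; exact h4 j hj
  · rw [← sht_congr h, ← sht_congr h]; exact h6 i j hij ht hn

theorem exists_small {J : Type} [Finite J] {c : J → ℝ} (hc : ∀ j, 0 < c j) :
    ∃ r > 0, ∀ j, r ≤ c j := by
  have h : ∀ᶠ r in 𝓝[>] (0 : ℝ), 0 < r ∧ ∀ j, r ≤ c j := by
    refine Filter.Eventually.and self_mem_nhdsWithin ?_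
    rw [eventually_all]
    intro j
    exact (eventually_le_nhds (hc j)).filter_mono nhdsWithin_le_nhds
  obtain ⟨r, h1, h2⟩ := h.exists
  exact ⟨r, h1, h2⟩

/-- **Uniqueness of the sheets near a point.** -/
theorem sheet_unique (hs : R.isSheet S p0 g0 v0) (h1 : ∀ l, R.ctr p0 ≠ R.oth p0 l)
    (h2 : ∀ j, R.nk j = false → v0 j ≠ 0) : ∃ r > 0, ∀ᶠ p in 𝓝 p0, ∀ g v,
      R.isSheet S p g v → ‖g - g0‖ < r → (∀ j, R.nk j = false → ‖v j - v0 j‖ < r) →
      g = gb R p0 g0 p ∧ ∀ j, R.nk j = false → v j = vb R S p0 v0 p j := by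
  have hg0 : g0 ≠ 0 := sheet_ne hs h1
  obtain ⟨r, hr, hr2⟩ := exists_small (J := Option {j : H95.L // R.nk j = false})
    (c := fun j => match j with
      | none => ‖g0‖ / 2
      | some j => ‖v0 j.1‖ / 2) (by
    intro j
    match j with
    | none => exact half_pos (norm_pos_iff.2 hg0)
    | some j => exact half_pos (norm_pos_iff.2 (h2 j.1 j.2)))
  refine ⟨r, hr, ?_⟩
  have e1 : ∀ᶠ p in 𝓝 p0, ‖gb R p0 g0 p - g0‖ < ‖g0‖ / 2 := by
    have hc : ContinuousAt (fun p => ‖gb R p0 g0 p - g0‖) p0 :=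
      ((an_gb h1 g0).continuousAt.sub continuousAt_const).norm
    refine hc.eventually_lt continuousAt_const ?_
    rw [gb_self h1, sub_self, norm_zero]
    exact half_pos (norm_pos_iff.2 hg0)
  have e2 : ∀ᶠ p in 𝓝 p0, ∀ j : {j : H95.L // R.nk j = false},
      ‖vb R S p0 v0 p j.1 - v0 j.1‖ < ‖v0 j.1‖ / 2 := by
    rw [eventually_all]
    intro j
    have hv := hs.2 j.1 j.2
    have hc : ContinuousAt (fun p => ‖vb R S p0 v0 p j.1 - v0 j.1‖) p0 :=
      ((an_vb hv (h2 j.1 j.2)).continuousAt.sub continuousAt_const).norm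
    refine hc.eventually_lt continuousAt_const ?_
    rw [vb_self hv (h2 j.1 j.2), sub_self, norm_zero]
    exact half_pos (norm_pos_iff.2 (h2 j.1 j.2))
  filter_upwards [e1, e2] with p h3 h4 g v hsh hg hv
  refine ⟨root_unique (c := g0) ?_ (hg.trans_le (hr2 none)) h3, fun j hj => ?_⟩
  · rw [hsh.1, gb_sq h1 hs.1]
  · refine root_unique (c := v0 j) ?_ ((hv j hj).trans_le (hr2 (some ⟨j, hj⟩))) (h4 ⟨j, hj⟩)
    rw [hsh.2 j hj, vb_sq (hs.2 j hj) (h2 j hj)]

/-- The sheets of all marks along the branch. -/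
theorem an_sht (h : R.ok S p0 g0 v0) (j : H95.L) :
    AnalyticAt ℂ (fun p => R.sht p (gb R p0 g0 p) (vb R S p0 v0 p) j) p0 := by
  cases hj : R.nk j with
  | false =>
    simp only [sht_core hj]
    exact an_vb ((ok_sheet h).2 j hj) (ok_core h hj).1
  | true =>
    simp only [sht_neck hj, div_eq_mul_inv]
    exact (((an_gb (ok_ctr h) g0).mul (an_nf hj (ok_neck h hj))).mul
      ((an_XX _).sub (an_YY _))).mul analyticAt_const

theorem branch_self (h : R.ok S p0 g0 v0) : R.ok S p0 (gb R p0 g0 p0) (vb R S p0 v0 p0) := by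
  rw [gb_self (ok_ctr h)]
  exact ok_congr (fun j hj => (vb_self ((ok_sheet h).2 j hj) (ok_core h hj).1).symm) h

theorem same_open {X : Type*} [TopologicalSpace X] {x0 : X} {s s' : Bool} {z w z' w' : X → ℂ}
    (hz : ContinuousAt z x0) (hw : ContinuousAt w x0) (hz' : ContinuousAt z' x0)
    (hw' : ContinuousAt w' x0) (h : ¬ H95.Same s (z x0) (w x0) s' (z' x0) (w' x0)) :
    ∀ᶠ x in 𝓝 x0, ¬ H95.Same s (z x) (w x) s' (z' x) (w' x) := by
  unfold H95.Same at h ⊢
  by_cases hs : s = s'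
  · simp only [if_pos hs] at h ⊢
    rw [not_and_or] at h
    rcases h with h | h
    · filter_upwards [(hz.ne_iff_eventually_ne hz').1 h] with x hx h2 using hx h2.1
    · filter_upwards [(hw.ne_iff_eventually_ne hw').1 h] with x hx h2 using hx h2.2
  · simp only [if_neg hs] at h ⊢
    rw [not_and_or] at h
    rcases h with h | h
    · filter_upwards [((hz.mul hz').ne_iff_eventually_ne continuousAt_const).1 h] with x hx h2
        using hx h2.1
    · filter_upwards [(hw'.ne_iff_eventually_ne (hw.mul (hz'.pow 3))).1 h] with x hx h2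
        using hx h2.2

theorem lt_open {X : Type*} [TopologicalSpace X] {x0 : X} {f g : X → ℝ} (hf : ContinuousAt f x0)
    (hg : ContinuousAt g x0) (h : f x0 < g x0) : ∀ᶠ x in 𝓝 x0, f x < g x :=
  hf.eventually_lt hg h

/-- The branch is admissible nearby. -/
theorem ok_branch (h : R.ok S p0 g0 v0) :
    ∀ᶠ p in 𝓝 p0, R.ok S p (gb R p0 g0 p) (vb R S p0 v0 p) := by
  have hctr : ContinuousAt (fun p : R.Sp => R.ctr p) p0 := an_ctr.continuousAt
  have hoth : ∀ l, ContinuousAt (fun p : R.Sp => R.oth p l) p0 := fun l =>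
    (an_oth l).continuousAt
  have heps : ContinuousAt (fun p : R.Sp => R.eps p) p0 := an_eps.continuousAt
  have hpos : ∀ j, ContinuousAt (fun p : R.Sp => R.pos p j) p0 := fun j =>
    (an_pos j).continuousAt
  have hsht : ∀ j, ContinuousAt (fun p => R.sht p (gb R p0 g0 p) (vb R S p0 v0 p) j) p0 :=
    fun j => (an_sht h j).continuousAt
  have hb := branch_self h
  have e1 : ∀ᶠ p in 𝓝 p0, ∀ l, R.ctr p ≠ R.oth p l ∧
      ‖R.eps p‖ < ‖R.ctr p - R.oth p l‖ ^ 2 / 4096 := by
    rw [eventually_all]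
    intro l
    filter_upwards [(hctr.ne_iff_eventually_ne (hoth l)).1 (ok_ctr h l),
      lt_open heps.norm (((hctr.sub (hoth l)).norm.pow 2).div_const 4096) (ok_eps h l)]
      with p h1 h2 using ⟨h1, h2⟩
  have e2 : ∀ᶠ p in 𝓝 p0, ∀ l l', R.oth p l = R.oth p l' → l = l' := by
    rw [eventually_all]
    intro l
    rw [eventually_all]
    intro l'
    by_cases hl : l = l'
    · exact Eventually.of_forall fun _ _ => hl
    · filter_upwards [((hoth l).ne_iff_eventually_ne (hoth l')).1 fun e => hl (ok_inj h l l' e)]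
        with p h1 h2 using absurd h2 h1
  have e3 : ∀ᶠ p in 𝓝 p0, ∀ j, R.nk j = false → vb R S p0 v0 p j ≠ 0 ∧
      if S j then ‖R.eps p * R.pos p j ^ 2‖ < ‖1 - R.ctr p * R.pos p j‖ ^ 2 / 4
      else ‖R.eps p‖ < ‖R.pos p j - R.ctr p‖ ^ 2 / 4 := by
    rw [eventually_all]
    intro j
    cases hj : R.nk j with
    | true => exact Eventually.of_forall fun _ h => absurd h (by simp)
    | false =>
      have hv : ContinuousAt (fun p => vb R S p0 v0 p j) p0 :=
        (an_vb ((ok_sheet h).2 j hj) (ok_core h hj).1).continuousAt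
      have hv0 : vb R S p0 v0 p0 j ≠ 0 := by
        rw [vb_self ((ok_sheet h).2 j hj) (ok_core h hj).1]; exact (ok_core h hj).1
      have h4 := (ok_core h hj).2
      have e4 : ∀ᶠ p in 𝓝 p0,
          if S j then ‖R.eps p * R.pos p j ^ 2‖ < ‖1 - R.ctr p * R.pos p j‖ ^ 2 / 4
          else ‖R.eps p‖ < ‖R.pos p j - R.ctr p‖ ^ 2 / 4 := by
        by_cases hSj : S j = true
        · simp only [if_pos hSj] at h4 ⊢
          exact lt_open (heps.mul ((hpos j).pow 2)).norm
            (((continuousAt_const.sub (hctr.mul (hpos j))).norm.pow 2).div_const 4) h4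
        · simp only [if_neg hSj] at h4 ⊢
          exact lt_open heps.norm ((((hpos j).sub hctr).norm.pow 2).div_const 4) h4
      filter_upwards [hv.eventually_ne hv0, e4] with p h5 h6 _ using ⟨h5, h6⟩
  have e5 : ∀ᶠ p in 𝓝 p0, ∀ j, R.nk j = true → ∀ l,
      ‖R.XX p (R.rk j)‖ < ‖R.ctr p - R.oth p l‖ / 8 ∧
        ‖R.YY p (R.rk j)‖ < ‖R.ctr p - R.oth p l‖ / 8 := by
    rw [eventually_all]
    intro j
    cases hj : R.nk j with
    | false => exact Eventually.of_forall fun _ h => absurd h (by simp)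
    | true =>
      have : ∀ᶠ p in 𝓝 p0, ∀ l, ‖R.XX p (R.rk j)‖ < ‖R.ctr p - R.oth p l‖ / 8 ∧
          ‖R.YY p (R.rk j)‖ < ‖R.ctr p - R.oth p l‖ / 8 := by
        rw [eventually_all]
        intro l
        filter_upwards [lt_open (an_XX (R.rk j)).continuousAt.norm
            ((hctr.sub (hoth l)).norm.div_const 8) (ok_neck h hj l).1,
          lt_open (an_YY (R.rk j)).continuousAt.norm
            ((hctr.sub (hoth l)).norm.div_const 8) (ok_neck h hj l).2] with p h1 h2 using ⟨h1, h2⟩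
      filter_upwards [this] with p h1 _ using h1
  have e6 : ∀ᶠ p in 𝓝 p0, ∀ i j : H95.L, i ≠ j → i.2 = j.2 →
      ¬ (R.nk i = true ∧ R.nk j = true) →
      ¬ H95.Same (S i) (R.pos p i) (R.sht p (gb R p0 g0 p) (vb R S p0 v0 p) i) (S j) (R.pos p j)
        (R.sht p (gb R p0 g0 p) (vb R S p0 v0 p) j) := by
    rw [eventually_all]
    intro i
    rw [eventually_all]
    intro j
    by_cases hc : i ≠ j ∧ i.2 = j.2 ∧ ¬ (R.nk i = true ∧ R.nk j = true)
    · have := hb.2.2.2.2.2.1 i j hc.1 hc.2.1 hc.2.2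
      filter_upwards [same_open (hpos i) (hsht i) (hpos j) (hsht j) this] with p h1 _ _ _
        using h1
    · exact Eventually.of_forall fun p h1 h2 h3 => absurd ⟨h1, h2, h3⟩ hc
  have e7 : ∀ᶠ p in 𝓝 p0, ∀ i j : H95.L, R.nk i = true → R.nk j = true → i.2 = j.2 →
      R.rk i < R.rk j →
      ∏ g : Fin (R.n + 1), (if R.rk i < (g : ℕ) ∧ (g : ℕ) ≤ R.rk j then p.1 g else 1) ≠ 1 := by
    rw [eventually_all]
    intro i
    rw [eventually_all]
    intro j
    by_cases hc : R.nk i = true ∧ R.nk j = true ∧ i.2 = j.2 ∧ R.rk i < R.rk j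
    · have h7 := h.2.2.2.2.2.2 i j hc.1 hc.2.1 hc.2.2.1 hc.2.2.2
      have hcont : AnalyticAt ℂ (fun p : R.Sp => ∏ g : Fin (R.n + 1),
          (if R.rk i < (g : ℕ) ∧ (g : ℕ) ≤ R.rk j then p.1 g else 1)) p0 := by
        refine Finset.analyticAt_fun_prod _ fun g _ => ?_
        by_cases hg : R.rk i < (g : ℕ) ∧ (g : ℕ) ≤ R.rk j
        · simp only [if_pos hg]; exact an_gap g
        · simp only [if_neg hg]; exact analyticAt_const
      filter_upwards [hcont.continuousAt.eventually_ne h7] with p h1 _ _ _ _ using h1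
    · exact Eventually.of_forall fun p h1 h2 h3 h4 => absurd ⟨h1, h2, h3, h4⟩ hc
  filter_upwards [e1, e2, e3, e5, e6, e7] with p h1 h2 h3 h5 h6 h7
  exact ⟨h1, h2, isSheet_b (ok_sheet h) (ok_ctr h) (fun j hj => (ok_core h hj).1) p, h3, h5,
    h6, h7⟩

/-- **The admissible set is open** (with the sheets). -/
theorem ok_open (h : R.ok S p0 g0 v0) : ∃ r > 0, ∀ᶠ p in 𝓝 p0, ∀ g v,
    R.isSheet S p g v → ‖g - g0‖ < r → (∀ j, R.nk j = false → ‖v j - v0 j‖ < r) →
    R.ok S p g v := by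
  obtain ⟨r, hr, h1⟩ := sheet_unique (ok_sheet h) (ok_ctr h) (fun j hj => (ok_core h hj).1)
  refine ⟨r, hr, ?_⟩
  filter_upwards [h1, ok_branch h] with p h2 h3 g v hs hg hv
  obtain ⟨h4, h5⟩ := h2 g v hs hg hv
  rw [h4]
  exact ok_congr (fun j hj => (h5 j hj).symm) h3

/-! ### Coincidences -/

/-- Product of the gaps between the ranks `a` and `b`. -/
def mu (R : H95.Region1) (p : R.Sp) (a b : ℕ) : ℂ :=
  ∏ g : Fin (R.n + 1), (if a < (g : ℕ) ∧ (g : ℕ) ≤ b then p.1 g else 1)

theorem XX_mu {a b : ℕ} (hab : a ≤ b) (p : R.Sp) : R.XX p b = mu R p a b * R.XX p a := by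
  simp only [H95.Region1.XX, mu, ← Finset.prod_mul_distrib]
  refine Finset.prod_congr rfl fun g _ => ?_
  by_cases h1 : (g : ℕ) ≤ a
  · rw [if_pos (h1.trans hab), if_neg (fun h => absurd h.1 (not_lt.2 h1)), if_pos h1, one_mul]
  · by_cases h2 : (g : ℕ) ≤ b
    · rw [if_pos h2, if_pos ⟨not_le.1 h1, h2⟩, if_neg h1, mul_one]
    · rw [if_neg h2, if_neg (fun h => h2 h.2), if_neg h1, mul_one]

theorem YY_mu {a b : ℕ} (hab : a ≤ b) (p : R.Sp) : R.YY p a = mu R p a b * R.YY p b := by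
  simp only [H95.Region1.YY, mu, ← Finset.prod_mul_distrib]
  refine Finset.prod_congr rfl fun g _ => ?_
  by_cases h1 : b < (g : ℕ)
  · rw [if_pos (hab.trans_lt h1), if_neg (fun h => absurd h1 (not_lt.2 h.2)), if_pos h1, one_mul]
  · by_cases h2 : a < (g : ℕ)
    · rw [if_pos h2, if_pos ⟨h2, not_lt.1 h1⟩, if_neg h1, mul_one]
    · rw [if_neg h2, if_neg (fun h => h2 h.1), if_neg h1, mul_one]

/-- Two neck marks are the same point iff their `X` and `Y` agree. -/
theorem neck_same {i j : H95.L} (hi : R.nk i = true) (hj : R.nk j = true)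
    (h : R.ok S p g v) :
    (R.pos p i = R.pos p j ∧ R.sht p g v i = R.sht p g v j) ↔
      (R.XX p (R.rk i) = R.XX p (R.rk j) ∧ R.YY p (R.rk i) = R.YY p (R.rk j)) := by
  have hg := sheet_ne (ok_sheet h) (ok_ctr h)
  have hnf := nf_ne hi (ok_neck h hi)
  constructor
  · rintro ⟨h1, h2⟩
    have h3 : nf R p i = nf R p j := by unfold nf; rw [h1]
    rw [sht_neck hi, sht_neck hj] at h2
    change g * nf R p i * _ / 2 = g * nf R p j * _ / 2 at h2
    rw [← h3] at h2
    have h4 : R.XX p (R.rk i) - R.YY p (R.rk i) = R.XX p (R.rk j) - R.YY p (R.rk j) := by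
      have h5 : g * nf R p i ≠ 0 := mul_ne_zero hg hnf
      field_simp at h2
      exact h2
    rw [pos_neck hi, pos_neck hj] at h1
    constructor
    · linear_combination h1 + h4 / 2
    · linear_combination h1 - h4 / 2
  · rintro ⟨h1, h2⟩
    have h3 : R.pos p i = R.pos p j := by rw [pos_neck hi, pos_neck hj, h1, h2]
    refine ⟨h3, ?_⟩
    rw [sht_neck hi, sht_neck hj, h3, h1, h2]

/-- Two neck marks are the same point iff the product of the gaps between them is `1`, or both are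
at the node. -/
theorem neck_same_iff {i j : H95.L} (hi : R.nk i = true) (hj : R.nk j = true)
    (hij : R.rk i < R.rk j) (h : R.ok S p g v) :
    (R.pos p i = R.pos p j ∧ R.sht p g v i = R.sht p g v j) ↔
      (mu R p (R.rk i) (R.rk j) = 1 ∨ (R.XX p (R.rk i) = 0 ∧ R.YY p (R.rk j) = 0)) := by
  rw [neck_same hi hj h, XX_mu hij.le, YY_mu hij.le]
  constructor
  · rintro ⟨h1, h2⟩
    by_cases hm : mu R p (R.rk i) (R.rk j) = 1
    · exact Or.inl hm
    · right
      have hm' : 1 - mu R p (R.rk i) (R.rk j) ≠ 0 := fun e => hm (by linear_combination -e)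
      constructor
      · refine (mul_eq_zero.1 ?_).resolve_left hm'
        linear_combination h1
      · refine (mul_eq_zero.1 ?_).resolve_left hm'
        linear_combination -h2
  · rintro (h1 | ⟨h1, h2⟩)
    · rw [h1, one_mul, one_mul]; exact ⟨rfl, rfl⟩
    · rw [h1, h2, mul_zero]; exact ⟨rfl, rfl⟩

theorem S_neck (hS : ∀ j, S j = true → R.nk j = false) {j : H95.L} (hj : R.nk j = true) :
    S j = false := by
  cases h : S j with
  | false => rfl
  | true => rw [hS j h] at hj; exact absurd hj (by simp)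

/-- **Same type marks are distinct at standard points.** -/
theorem ok_sep (hS : ∀ j, S j = true → R.nk j = false) (h : R.ok S p g v)
    (hstd : R.n ≠ 0 → ∀ g, p.1 g ≠ 0) : H95.Sep S (R.pos p) (R.sht p g v) := by
  have key : ∀ i j : H95.L, R.nk i = true → R.nk j = true → i.2 = j.2 → R.rk i < R.rk j →
      ¬ (R.pos p i = R.pos p j ∧ R.sht p g v i = R.sht p g v j) := by
    intro i j hi hj ht hr hc
    have hn : R.n ≠ 0 := by
      have := R.rk_lt i hi
      unfold H95.Region1.n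
      omega
    rcases (neck_same_iff hi hj hr h).1 hc with h1 | h1
    · exact h.2.2.2.2.2.2 i j hi hj ht hr h1
    · refine (Finset.prod_ne_zero_iff.2 fun g _ => ?_) h1.1
      by_cases hg : (g : ℕ) ≤ R.rk i
      · rw [if_pos hg]; exact hstd hn g
      · rw [if_neg hg]; exact one_ne_zero
  intro i j hij ht
  by_cases hn : R.nk i = true ∧ R.nk j = true
  · obtain ⟨hi, hj⟩ := hn
    unfold H95.Same
    rw [S_neck hS hi, S_neck hS hj, if_pos rfl]
    rcases lt_trichotomy (R.rk i) (R.rk j) with hr | hr | hr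
    · exact key i j hi hj ht hr
    · exact absurd (R.rk_inj i j hi hj hr) hij
    · intro hc
      exact key j i hj hi ht.symm hr ⟨hc.1.symm, hc.2.symm⟩
  · exact h.2.2.2.2.2.1 i j hij ht hn

/-- **The marks are points of the curve outside the roots, at standard points.** -/
theorem ok_onC (hS : ∀ j, S j = true → R.nk j = false) (h : R.ok S p g v)
    (hstd : R.isStd p g v) : H95.OnC S (R.cf p) (R.pos p) (R.sht p g v) :=
  fun j => ⟨ok_sht_sq hS h j, hstd.2 j⟩

end Vale.Agent.P273.H883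

end
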