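import Vale.Agent.P273.H883.Real1
import Vale.Agent.P273.H95.ExtH1

/-! One node: `RegLoc1` from the comparison theorem. -/

noncomputable section

namespace Vale.Agent.P273.H883

open Set Filter
open scoped Topology ContDiff
open Vale.Agent.P273
open Vale.Agent.P273.H183 (Fam IsClosedForm)
open Vale.Agent.P273.H680 (push k20')

/-- The value of the form of a realizing family in terms of `FS`. -/
def FSeq1 (F : ∀ m, Fam H95.L m → (Fin m → ℂ) → (Fin m → ℂ) [⋀^Fin 16]→L[ℝ] ℝ)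
    (FS : (H95.L → Bool) → H95.E → (H95.L → ℂ) → H95.Alt 16 H95.E) : Prop :=
  ∀ (R : H95.Region1) (S : H95.L → Bool) (σ : R.Sp → H95.L → ℂ) (C : Fam H95.L 20),
    H888.Real (k20' R) R.psi S σ C → ∀ p : R.Sp, (k20' R).symm p ∈ C.B →
      H888.Dist S (R.psi p) (σ p) →
      push (k20' R) (F 20 C) p =
        (FS S (R.psi p) (σ p)).compContinuousLinearMap (fderiv ℝ R.psi p)

/-- **`RegLoc1`.** -/
theorem regLoc1_of {F : ∀ m, Fam H95.L m → (Fin m → ℂ) → (Fin m → ℂ) [⋀^Fin 16]→L[ℝ] ℝ}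
    (hF : IsClosedForm H95.L 16 F)
    {FS : (H95.L → Bool) → H95.E → (H95.L → ℂ) → H95.Alt 16 H95.E} (hFS : FSeq1 F FS) :
    H95.RegLoc1 FS := by
  intro R S hS p₀ g₀ v₀ h
  obtain ⟨C, hR, hc, hok⟩ := real1 (k20' R) hS h
  obtain ⟨h1, h2, h3⟩ := H680.fam_push hF hR.stable (k20' R)
  obtain ⟨r, hr, hu⟩ := sheet_unique (ok_sheet h) (ok_ctr h) (fun j hj => (ok_core h hj).1)
  obtain ⟨W, hW, hWo, hpW⟩ := eventually_nhds_iff.1 hu
  refine ⟨W ∩ (k20' R).symm ⁻¹' C.B, push (k20' R) (F 20 C), r, hWo.inter h1, ⟨hpW, hc⟩, hr,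
    h2.mono inter_subset_right, fun p hp => h3 p hp.2, ?_⟩
  intro p hp g v hokp hg hv hstd hdst
  obtain ⟨e1, e2⟩ := hW p hp.1 g v (ok_sheet hokp) hg hv
  have hsg : sg1 R S p₀ g₀ v₀ p = R.sht p g v := by
    funext j
    rw [sg1, ← e1]
    exact sht_congr (fun j hj => (e2 j hj).symm) j
  have hdist : H888.Dist S (R.psi p) (R.sht p g v) :=
    ⟨ok_onC hS hokp hstd, fun i j hij => hdst i j hij⟩
  have := hFS R S (sg1 R S p₀ g₀ v₀) C hR p hp.2 (hsg ▸ hdist)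
  rw [hsg] at this
  exact this

end Vale.Agent.P273.H883

end
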