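import Vale.Agent.P273.H883.Pos1

/-!
Region1 (one node): analyticity of the coordinates, local branches of the sheets.
-/

noncomputable section

namespace Vale.Agent.P273.H883

open Set Filter
open scoped Topology
open Vale.Agent.P273

variable {R : H95.Region1} {p0 : R.Sp}

/-! ### analyticity -/

theorem an_gap (g : Fin (R.n + 1)) : AnalyticAt ℂ (fun p : R.Sp => p.1 g) p0 :=
  ((ContinuousLinearMap.proj (R := ℂ) (φ := fun _ : Fin (R.n + 1) => ℂ) g).comp
    (ContinuousLinearMap.fst ℂ _ _)).analyticAt p0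

theorem an_cor (i : R.Cm ⊕ Fin 5) : AnalyticAt ℂ (fun p : R.Sp => p.2 i) p0 :=
  ((ContinuousLinearMap.proj (R := ℂ) (φ := fun _ : R.Cm ⊕ Fin 5 => ℂ) i).comp
    (ContinuousLinearMap.snd ℂ _ _)).analyticAt p0

theorem an_ctr : AnalyticAt ℂ (fun p : R.Sp => R.ctr p) p0 := an_cor _

theorem an_oth (l : Fin 4) : AnalyticAt ℂ (fun p : R.Sp => R.oth p l) p0 := an_cor _

theorem an_eps : AnalyticAt ℂ (fun p : R.Sp => R.eps p) p0 :=
  Finset.analyticAt_fun_prod _ fun g _ => an_gap g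

theorem an_XX (i : ℕ) : AnalyticAt ℂ (fun p : R.Sp => R.XX p i) p0 := by
  refine Finset.analyticAt_fun_prod _ fun g _ => ?_
  by_cases h : (g : ℕ) ≤ i
  · simp only [if_pos h]; exact an_gap g
  · simp only [if_neg h]; exact analyticAt_const

theorem an_YY (i : ℕ) : AnalyticAt ℂ (fun p : R.Sp => R.YY p i) p0 := by
  refine Finset.analyticAt_fun_prod _ fun g _ => ?_
  by_cases h : i < (g : ℕ)
  · simp only [if_pos h]; exact an_gap g
  · simp only [if_neg h]; exact analyticAt_const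

theorem an_pos (j : H95.L) : AnalyticAt ℂ (fun p : R.Sp => R.pos p j) p0 := by
  cases hj : R.nk j with
  | false =>
    refine (an_cor (Sum.inl ⟨j, hj⟩)).congr (Eventually.of_forall fun p => ?_)
    exact (pos_core hj).symm
  | true =>
    refine (an_ctr.add (((an_XX (R.rk j)).add (an_YY (R.rk j))).mul
      (analyticAt_const (v := (2 : ℂ)⁻¹)))).congr (Eventually.of_forall fun p => ?_)
    show R.ctr p + (R.XX p (R.rk j) + R.YY p (R.rk j)) * 2⁻¹ = R.pos p j
    rw [pos_neck hj, div_eq_mul_inv]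

/-- Coefficients of a product depend analytically on the parameter. -/
theorem an_coeff_mul {P Q : R.Sp → Polynomial ℂ} (hP : ∀ i, AnalyticAt ℂ (fun p => (P p).coeff i) p0)
    (hQ : ∀ i, AnalyticAt ℂ (fun p => (Q p).coeff i) p0) (i : ℕ) :
    AnalyticAt ℂ (fun p => (P p * Q p).coeff i) p0 := by
  simp only [Polynomial.coeff_mul]
  exact Finset.analyticAt_fun_sum _ fun x _ => (hP x.1).mul (hQ x.2)

theorem an_coeff_C {c : R.Sp → ℂ} (hc : AnalyticAt ℂ c p0) (i : ℕ) :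
    AnalyticAt ℂ (fun p => (Polynomial.C (c p)).coeff i) p0 := by
  simp only [Polynomial.coeff_C]
  by_cases h : i = 0
  · simp only [if_pos h]; exact hc
  · simp only [if_neg h]; exact analyticAt_const

theorem an_coeff_lin {c : R.Sp → ℂ} (hc : AnalyticAt ℂ c p0) (i : ℕ) :
    AnalyticAt ℂ (fun p => (Polynomial.X - Polynomial.C (c p)).coeff i) p0 := by
  simp only [Polynomial.coeff_sub]
  exact analyticAt_const.sub (an_coeff_C hc i)

theorem an_coeff_prod {T : Type} (s : Finset T) {P : T → R.Sp → Polynomial ℂ}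
    (hP : ∀ t i, AnalyticAt ℂ (fun p => (P t p).coeff i) p0) (i : ℕ) :
    AnalyticAt ℂ (fun p => (∏ t ∈ s, P t p).coeff i) p0 := by
  classical
  induction s using Finset.induction_on generalizing i with
  | empty => simp only [Finset.prod_empty]; exact analyticAt_const
  | insert t s ht ih =>
    simp only [Finset.prod_insert ht]
    exact an_coeff_mul (hP t) ih i

theorem an_cf : AnalyticAt ℂ (fun p : R.Sp => R.cf p) p0 := by
  rw [analyticAt_pi_iff]
  intro i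
  show AnalyticAt ℂ (fun p : R.Sp => (((Polynomial.X - Polynomial.C (R.ctr p)) ^ 2 -
    Polynomial.C (R.eps p)) * ∏ l : Fin 4, (Polynomial.X - Polynomial.C (R.oth p l))).coeff i) p0
  refine an_coeff_mul (fun i => ?_) (fun i => ?_) i
  · simp only [Polynomial.coeff_sub]
    refine AnalyticAt.sub ?_ (an_coeff_C an_eps i)
    simp only [pow_two]
    exact an_coeff_mul (an_coeff_lin an_ctr) (an_coeff_lin an_ctr) i
  · exact an_coeff_prod _ (fun l => an_coeff_lin (an_oth l)) i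

theorem an_sx {a : R.Sp → Fin 6 → ℂ} {x : R.Sp → ℂ} (ha : AnalyticAt ℂ a p0)
    (hx : AnalyticAt ℂ x p0) (b : Bool) : AnalyticAt ℂ (fun p => H95.pol b (a p) (x p)) p0 := by
  have h : ∀ i : Fin 6, AnalyticAt ℂ (fun p => a p i) p0 := fun i =>
    (analyticAt_pi_iff.1 ha) i
  cases b
  · simp only [H724.pol_false, H183.sx]
    exact (((((((hx.pow 6).add ((h 5).mul (hx.pow 5))).add ((h 4).mul (hx.pow 4))).add
      ((h 3).mul (hx.pow 3))).add ((h 2).mul (hx.pow 2))).add ((h 1).mul hx)).add (h 0))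
  · simp only [H724.pol_true, H183.sw]
    exact ((((((analyticAt_const.add ((h 5).mul hx)).add ((h 4).mul (hx.pow 2))).add
      ((h 3).mul (hx.pow 3))).add ((h 2).mul (hx.pow 4))).add ((h 1).mul (hx.pow 5))).add
      ((h 0).mul (hx.pow 6)))

theorem an_polj (S : H95.L → Bool) (j : H95.L) :
    AnalyticAt ℂ (fun p : R.Sp => H95.pol (S j) (R.cf p) (R.pos p j)) p0 :=
  an_sx an_cf (an_pos j) (S j)

/-! ### the neck factor -/

theorem ratio_slit {x e r : ℂ} (h : ‖x - e‖ < ‖e - r‖) : (x - r) / (e - r) ∈ Complex.slitPlane := by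
  have h0 : 0 < ‖e - r‖ := (norm_nonneg _).trans_lt h
  have h1 : e - r ≠ 0 := norm_pos_iff.1 h0
  have h2 : (x - r) / (e - r) = 1 + (x - e) / (e - r) := by
    field_simp
    ring
  rw [h2]
  refine Complex.mem_slitPlane_of_norm_lt_one ?_
  rw [norm_div, div_lt_one h0]
  exact h

theorem neck_near {p : R.Sp} {j : H95.L} (hj : R.nk j = true) {l : Fin 4}
    (h1 : ‖R.XX p (R.rk j)‖ < ‖R.ctr p - R.oth p l‖ / 8)
    (h2 : ‖R.YY p (R.rk j)‖ < ‖R.ctr p - R.oth p l‖ / 8) :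
    ‖R.pos p j - R.ctr p‖ < ‖R.ctr p - R.oth p l‖ / 8 := by
  rw [pos_neck hj, add_sub_cancel_left, norm_div]
  have h3 := norm_add_le (R.XX p (R.rk j)) (R.YY p (R.rk j))
  have h4 : ‖(2 : ℂ)‖ = 2 := by simp
  rw [h4]
  linarith

/-- The factor `∏ csq (..)` of a neck mark. -/
def nf (R : H95.Region1) (p : R.Sp) (j : H95.L) : ℂ :=
  ∏ l : Fin 4, H95.csq ((R.pos p j - R.oth p l) / (R.ctr p - R.oth p l))

theorem an_nf {j : H95.L} (hj : R.nk j = true)
    (h : ∀ l, ‖R.XX p0 (R.rk j)‖ < ‖R.ctr p0 - R.oth p0 l‖ / 8 ∧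
      ‖R.YY p0 (R.rk j)‖ < ‖R.ctr p0 - R.oth p0 l‖ / 8) :
    AnalyticAt ℂ (fun p : R.Sp => nf R p j) p0 := by
  refine Finset.analyticAt_fun_prod _ fun l _ => ?_
  have h1 := neck_near hj (h l).1 (h l).2
  have h0 : 0 < ‖R.ctr p0 - R.oth p0 l‖ := by
    have := norm_nonneg (R.XX p0 (R.rk j))
    have := (h l).1
    linarith
  refine AnalyticAt.fun_comp (analyticAt_csq (ratio_slit (by linarith))) ?_
  exact ((an_pos j).sub (an_oth l)).div (an_ctr.sub (an_oth l)) (norm_pos_iff.1 h0)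

theorem csq_ne {z : ℂ} (hz : z ≠ 0) : H95.csq z ≠ 0 := by
  intro h
  apply hz
  rw [← csq_sq z, h]
  simp

theorem nf_ne {p : R.Sp} {j : H95.L} (hj : R.nk j = true)
    (h : ∀ l, ‖R.XX p (R.rk j)‖ < ‖R.ctr p - R.oth p l‖ / 8 ∧
      ‖R.YY p (R.rk j)‖ < ‖R.ctr p - R.oth p l‖ / 8) : nf R p j ≠ 0 := by
  refine Finset.prod_ne_zero_iff.2 fun l _ => csq_ne ?_
  have h1 := neck_near hj (h l).1 (h l).2
  have h0 : 0 < ‖R.ctr p - R.oth p l‖ := by
    have := norm_nonneg (R.XX p (R.rk j))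
    have := (h l).1
    linarith
  exact Complex.slitPlane_ne_zero (ratio_slit (by linarith))

/-! ### local branches of the sheets -/

/-- The branch of `g` through `g0` at `p0`. -/
def gb (R : H95.Region1) (p0 : R.Sp) (g0 : ℂ) (p : R.Sp) : ℂ :=
  g0 * ∏ l : Fin 4, H95.csq ((R.ctr p - R.oth p l) / (R.ctr p0 - R.oth p0 l))

/-- The branch of the sheet of a core mark through `v0` at `p0`. -/
def vb (R : H95.Region1) (S : H95.L → Bool) (p0 : R.Sp) (v0 : H95.L → ℂ) (p : R.Sp) (j : H95.L) :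
    ℂ :=
  v0 j * H95.csq (H95.pol (S j) (R.cf p) (R.pos p j) / H95.pol (S j) (R.cf p0) (R.pos p0 j))

theorem gb_self (h1 : ∀ l, R.ctr p0 ≠ R.oth p0 l) (g0 : ℂ) : gb R p0 g0 p0 = g0 := by
  unfold gb
  have : ∀ l : Fin 4, (R.ctr p0 - R.oth p0 l) / (R.ctr p0 - R.oth p0 l) = 1 := fun l =>
    div_self (sub_ne_zero.2 (h1 l))
  simp only [this, csq_one, Finset.prod_const_one, mul_one]

theorem an_gb (h1 : ∀ l, R.ctr p0 ≠ R.oth p0 l) (g0 : ℂ) :
    AnalyticAt ℂ (gb R p0 g0) p0 := by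
  refine analyticAt_const.mul (Finset.analyticAt_fun_prod _ fun l _ => ?_)
  have h := sub_ne_zero.2 (h1 l)
  refine AnalyticAt.fun_comp (g := H95.csq) (analyticAt_csq ?_)
    ((an_ctr.sub (an_oth l)).div analyticAt_const h)
  rw [div_self h]
  exact Complex.one_mem_slitPlane

theorem gb_sq (h1 : ∀ l, R.ctr p0 ≠ R.oth p0 l) {g0 : ℂ}
    (hg : g0 ^ 2 = ∏ l : Fin 4, (R.ctr p0 - R.oth p0 l)) (p : R.Sp) :
    gb R p0 g0 p ^ 2 = ∏ l : Fin 4, (R.ctr p - R.oth p l) := by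
  unfold gb
  rw [mul_pow, hg, ← Finset.prod_pow]
  simp only [csq_sq]
  rw [← Finset.prod_mul_distrib]
  refine Finset.prod_congr rfl fun l _ => ?_
  have h := sub_ne_zero.2 (h1 l)
  field_simp

theorem vb_self {S : H95.L → Bool} {v0 : H95.L → ℂ} {j : H95.L}
    (hv : v0 j ^ 2 = H95.pol (S j) (R.cf p0) (R.pos p0 j)) (h0 : v0 j ≠ 0) :
    vb R S p0 v0 p0 j = v0 j := by
  unfold vb
  rw [← hv, div_self (pow_ne_zero 2 h0), csq_one, mul_one]

theorem an_vb {S : H95.L → Bool} {v0 : H95.L → ℂ} {j : H95.L}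
    (hv : v0 j ^ 2 = H95.pol (S j) (R.cf p0) (R.pos p0 j)) (h0 : v0 j ≠ 0) :
    AnalyticAt ℂ (fun p => vb R S p0 v0 p j) p0 := by
  have h : H95.pol (S j) (R.cf p0) (R.pos p0 j) ≠ 0 := hv ▸ pow_ne_zero 2 h0
  refine analyticAt_const.mul (AnalyticAt.fun_comp (g := H95.csq) (analyticAt_csq ?_)
    ((an_polj S j).div analyticAt_const h))
  rw [div_self h]
  exact Complex.one_mem_slitPlane

theorem vb_sq {S : H95.L → Bool} {v0 : H95.L → ℂ} {j : H95.L}
    (hv : v0 j ^ 2 = H95.pol (S j) (R.cf p0) (R.pos p0 j)) (h0 : v0 j ≠ 0) (p : R.Sp) :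
    vb R S p0 v0 p j ^ 2 = H95.pol (S j) (R.cf p) (R.pos p j) := by
  unfold vb
  have h : H95.pol (S j) (R.cf p0) (R.pos p0 j) ≠ 0 := hv ▸ pow_ne_zero 2 h0
  rw [mul_pow, csq_sq, hv]
  field_simp

/-- The branches are sheets (everywhere). -/
theorem isSheet_b {S : H95.L → Bool} {g0 : ℂ} {v0 : H95.L → ℂ} (hs : R.isSheet S p0 g0 v0)
    (h1 : ∀ l, R.ctr p0 ≠ R.oth p0 l) (h2 : ∀ j, R.nk j = false → v0 j ≠ 0) (p : R.Sp) :
    R.isSheet S p (gb R p0 g0 p) (vb R S p0 v0 p) :=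
  ⟨gb_sq h1 hs.1 p, fun j hj => vb_sq (hs.2 j hj) (h2 j hj) p⟩

/-- Uniqueness of a square root near a nonzero value. -/
theorem root_unique {c u v : ℂ} (h : u ^ 2 = v ^ 2) (hu : ‖u - c‖ < ‖c‖ / 2)
    (hv : ‖v - c‖ < ‖c‖ / 2) : u = v := by
  rcases sq_eq_sq_iff_eq_or_eq_neg.1 h with h | h
  · exact h
  · exfalso
    have h3 : 2 * c = -((u - c) + (v - c)) := by rw [h]; ring
    have h4 : ‖2 * c‖ < ‖c‖ := by
      rw [h3, norm_neg]
      exact (norm_add_le _ _).trans_lt (by linarith)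
    rw [norm_mul] at h4
    have : ‖(2 : ℂ)‖ = 2 := by simp
    rw [this] at h4
    have := norm_nonneg c
    linarith

end Vale.Agent.P273.H883

end
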