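import Vale.Agent.P273.H883.RegLoc1
import Vale.Agent.P273.H888.FS

/-! One node: `RegLoc1` for 888's `FS`. -/

noncomputable section

namespace Vale.Agent.P273.H883

open Vale.Agent.P273
open Vale.Agent.P273.H183 (Fam IsClosedForm)

/-- **`RegLoc1 (FS F)`.** -/
theorem regLoc1 (hA : H888.A1)
    {F : ∀ m, Fam H95.L m → (Fin m → ℂ) → (Fin m → ℂ) [⋀^Fin 16]→L[ℝ] ℝ}
    (hF : IsClosedForm H95.L 16 F) : H95.RegLoc1 (H888.FS F) :=
  regLoc1_of hF fun _ _ _ _ h _ hp hd => H888.FS_eq hA hF h hp hd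

end Vale.Agent.P273.H883

end
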