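import Mathlib

/-!
Inversion of the plane and finite products of measures.
-/

namespace Vale.Agent.P273.H883

open MeasureTheory Set
open scoped ENNReal

section Prod

theorem lintegral_fin_prod {n : ℕ} {E : Fin n → Type*} {mE : ∀ i, MeasurableSpace (E i)}
    (μ : ∀ i, Measure (E i)) [∀ i, SigmaFinite (μ i)] (f : ∀ i, E i → ℝ≥0∞)
    (hf : ∀ i, Measurable (f i)) :
    ∫⁻ x, ∏ i, f i (x i) ∂(Measure.pi μ) = ∏ i, ∫⁻ x, f i x ∂(μ i) := by
  induction n with
  | zero => simp
  | succ n ih =>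
    have h := (measurePreserving_piFinSuccAbove μ 0).symm
    have hm : Measurable fun x : (∀ i, E i) => ∏ i, f i (x i) :=
      Finset.measurable_prod _ fun i _ => (hf i).comp (measurable_pi_apply i)
    rw [← h.lintegral_comp hm]
    have h1 : ∀ x : E 0 × (∀ i : Fin n, E (Fin.succAbove 0 i)),
        ∏ i, f i ((MeasurableEquiv.piFinSuccAbove E 0).symm x i) =
          f 0 x.1 * ∏ i : Fin n, f (Fin.succAbove 0 i) (x.2 i) := by
      intro x
      have e : (MeasurableEquiv.piFinSuccAbove E 0).symm x = Fin.insertNth 0 x.1 x.2 := rfl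
      rw [Fin.prod_univ_succAbove _ 0, e, Fin.insertNth_apply_same]
      simp only [Fin.insertNth_apply_succAbove]
    simp only [h1]
    have h2 : Measurable fun x : (∀ i : Fin n, E (Fin.succAbove 0 i)) =>
        ∏ i : Fin n, f (Fin.succAbove 0 i) (x i) :=
      Finset.measurable_prod _ fun i _ => (hf _).comp (measurable_pi_apply i)
    have h3 := lintegral_prod_mul (μ := μ 0) (ν := Measure.pi fun j => μ (Fin.succAbove 0 j))
      (hf 0).aemeasurable h2.aemeasurable
    rw [h3, ih (fun i => μ (Fin.succAbove 0 i)) (fun i => f (Fin.succAbove 0 i)) (fun i => hf _),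
      Fin.prod_univ_succAbove _ 0]

variable {J : Type*} [Fintype J] {X : J → Type*} [∀ j, MeasurableSpace (X j)]

theorem lintegral_pi_prod (μ : ∀ j, Measure (X j)) [∀ j, SigmaFinite (μ j)]
    (f : ∀ j, X j → ℝ≥0∞) (hf : ∀ j, Measurable (f j)) :
    ∫⁻ x, ∏ j, f j (x j) ∂(Measure.pi μ) = ∏ j, ∫⁻ x, f j x ∂(μ j) := by
  have e := (Fintype.equivFin J).symm
  have h := measurePreserving_piCongrLeft μ e
  have hm : Measurable fun x : (∀ j, X j) => ∏ j, f j (x j) :=
    Finset.measurable_prod _ fun i _ => (hf i).comp (measurable_pi_apply i)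
  rw [← h.lintegral_comp hm]
  have h1 : ∀ x : (∀ i, X (e i)), ∏ j, f j (MeasurableEquiv.piCongrLeft X e x j) =
      ∏ i, f (e i) (x i) := by
    intro x
    rw [← Equiv.prod_comp e]
    refine Finset.prod_congr rfl fun i _ => ?_
    have h2 : (MeasurableEquiv.piCongrLeft X e) x (e i) = x i :=
      Equiv.piCongrLeft_apply_apply (P := X) e x i
    rw [h2]
  simp only [h1]
  rw [lintegral_fin_prod (fun i => μ (e i)) (fun i => f (e i)) (fun i => hf _)]
  exact Equiv.prod_comp e fun j => ∫⁻ x, f j x ∂(μ j)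

theorem pi_withDensity (μ : ∀ j, Measure (X j)) [∀ j, SigmaFinite (μ j)]
    (f : ∀ j, X j → ℝ≥0∞) (hf : ∀ j, Measurable (f j))
    [∀ j, SigmaFinite ((μ j).withDensity (f j))] :
    Measure.pi (fun j => (μ j).withDensity (f j)) =
      (Measure.pi μ).withDensity fun x => ∏ j, f j (x j) := by
  refine Measure.pi_eq fun s hs => ?_
  rw [withDensity_apply _ (MeasurableSet.univ_pi hs), Measure.restrict_pi_pi,
    lintegral_pi_prod (fun j => (μ j).restrict (s j)) f hf]
  exact Finset.prod_congr rfl fun j _ => (withDensity_apply _ (hs j)).symm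

theorem pi_sum_bool [DecidableEq J] (μ : Bool → ∀ j, Measure (X j)) [∀ b j, SigmaFinite (μ b j)] :
    Measure.pi (fun j => μ false j + μ true j) =
      ∑ b : J → Bool, Measure.pi (fun j => μ (b j) j) := by
  refine Measure.pi_eq fun s hs => ?_
  rw [Measure.finsetSum_apply]
  simp only [Measure.pi_pi]
  have h : ∀ j, (μ false j + μ true j) (s j) = ∑ b : Bool, μ b j (s j) := by
    intro j
    simp [add_comm]
  simp only [h]
  rw [Finset.prod_univ_sum]
  refine Finset.sum_congr ?_ fun _ _ => rfl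
  ext b
  simp

theorem withDensity_map' {α β : Type*} [MeasurableSpace α] [MeasurableSpace β] (μ : Measure α)
    {g : α → β} (hg : Measurable g) {h : β → ℝ≥0∞} (hh : Measurable h) :
    (μ.map g).withDensity h = (μ.withDensity (h ∘ g)).map g := by
  ext s hs
  rw [withDensity_apply _ hs, Measure.map_apply hg hs, withDensity_apply _ (hg hs),
    Measure.restrict_map hg hs, lintegral_map hh hg]
  rfl

end Prod

section Inv

/-- The density of the inversion. -/
noncomputable def rho (w : ℂ) : ℝ≥0∞ := ENNReal.ofReal (‖w‖ ^ 4)⁻¹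

theorem measurable_rho : Measurable rho :=
  ((measurable_norm.pow_const 4).inv).ennreal_ofReal

/-- The punctured disc of the coordinate `w = 1 / x`. -/
def pdisc (R0 : ℝ) : Set ℂ := {w | w ≠ 0 ∧ ‖w‖ < R0⁻¹}

theorem measurableSet_pdisc (R0 : ℝ) : MeasurableSet (pdisc R0) :=
  ((measurableSet_singleton (0 : ℂ)).compl).inter
    (measurableSet_lt measurable_norm measurable_const)

theorem inv_image {R0 : ℝ} (hR : 0 < R0) : (fun w : ℂ => w⁻¹) '' pdisc R0 = {x | R0 < ‖x‖} := by
  ext x
  constructor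
  · rintro ⟨w, ⟨hw, hw2⟩, rfl⟩
    have h0 : 0 < ‖w‖ := norm_pos_iff.2 hw
    show R0 < ‖w⁻¹‖
    rw [norm_inv]
    exact (lt_inv_comm₀ hR h0).2 hw2
  · intro hx
    have h0 : 0 < ‖x‖ := hR.trans hx
    have hx0 : x ≠ 0 := norm_pos_iff.1 h0
    refine ⟨x⁻¹, ⟨inv_ne_zero hx0, ?_⟩, inv_inv x⟩
    rw [norm_inv]
    exact (inv_lt_inv₀ h0 hR).2 hx

theorem inv_meas {R0 : ℝ} (hR : 0 < R0) :
    ((volume.restrict (pdisc R0)).withDensity rho).map (fun w : ℂ => w⁻¹) =
      volume.restrict {x : ℂ | R0 < ‖x‖} := by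
  have hd : ∀ w ∈ pdisc R0, HasFDerivWithinAt (fun w : ℂ => w⁻¹)
      (((ContinuousLinearMap.toSpanSingleton ℂ (-(w ^ 2)⁻¹)).restrictScalars ℝ) : ℂ →L[ℝ] ℂ)
      (pdisc R0) w := by
    intro w hw
    exact ((hasDerivAt_inv hw.1).hasFDerivAt.restrictScalars ℝ).hasFDerivWithinAt
  have hi : InjOn (fun w : ℂ => w⁻¹) (pdisc R0) := fun a _ b _ h => inv_injective h
  have h := map_withDensity_abs_det_fderiv_eq_addHaar volume
    (measurableSet_pdisc R0).nullMeasurableSet hd hi
  rw [inv_image hR] at h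
  rw [← h]
  refine congrArg (Measure.map _) (congrArg _ ?_)
  funext w
  rw [rho]
  refine congrArg ENNReal.ofReal ?_
  simp [ContinuousLinearMap.det, LinearMap.det_restrictScalars,
      Algebra.norm_complex_eq, Complex.normSq_eq_norm_sq, ← pow_mul]

end Inv

end Vale.Agent.P273.H883
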