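import Vale.Agent.P273.H852.RegionDefs
import Vale.Agent.P273.H883.FarMeas

/-!
Region decomposition: near and far zones of the core marks.

A core mark `x` is either near (`‖x‖ ≤ R0`, coordinate `x`) or far (`R0 < ‖x‖`, coordinate
`w = 1 / x`, `0 < ‖w‖ < 1 / R0`, density `‖w‖ ^ (-4)`).
-/

namespace Vale.Agent.P273.H883

open MeasureTheory Set Finset
open scoped ENNReal
open Vale.Agent.P273.H852

variable {ι K : Type*}

/-- The zone of the coordinate of a core mark: `false` = near, `true` = far. -/
def zone (D : Necks K) (R0 : ℝ) (b : Bool) : Set ℂ :=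
  if b then pdisc R0 else D.core ∩ Metric.closedBall 0 R0

/-- The point with this coordinate. -/
noncomputable def xof (b : Bool) (w : ℂ) : ℂ := if b then w⁻¹ else w

/-- The density of the zone. -/
noncomputable def dens (b : Bool) (w : ℂ) : ℝ≥0∞ := if b then rho w else 1

theorem measurable_xof (b : Bool) : Measurable (xof b) := by
  cases b
  · exact measurable_id
  · exact measurable_inv

theorem measurable_dens (b : Bool) : Measurable (dens b) := by
  cases b
  · exact measurable_const
  · exact measurable_rho

theorem dens_ne_top (b : Bool) (w : ℂ) : dens b w ≠ ∞ := by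
  cases b
  · exact ENNReal.one_ne_top
  · exact ENNReal.ofReal_ne_top

instance sigmaFinite_dens (μ : Measure ℂ) [SigmaFinite μ] (b : Bool) :
    SigmaFinite (μ.withDensity (dens b)) := by
  cases b
  · have : dens false = fun _ => 1 := rfl
    rw [this, withDensity_const, one_smul]
    infer_instance
  · exact SigmaFinite.withDensity_ofReal _

section One

variable {D : Necks K} {R0 : ℝ}

theorem far_sub_core (hball : ∀ k, ell (D.e k) (D.ε k) (D.c k) ⊆ Metric.closedBall 0 R0) :
    {x : ℂ | R0 < ‖x‖} ⊆ D.core := by
  intro x hx hx2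
  obtain ⟨k, hk⟩ := mem_iUnion.1 hx2
  have := hball k hk
  rw [Metric.mem_closedBall, dist_zero_right] at this
  exact absurd hx (not_lt.2 this)

/-- One core mark. -/
theorem core_zones (hR : 0 < R0)
    (hball : ∀ k, ell (D.e k) (D.ε k) (D.c k) ⊆ Metric.closedBall 0 R0) :
    (volume.restrict D.core : Measure ℂ) =
      (((volume.restrict (zone D R0 false)).withDensity (dens false)).map (xof false)) +
        (((volume.restrict (zone D R0 true)).withDensity (dens true)).map (xof true)) := by
  have h1 : (((volume.restrict (zone D R0 false)).withDensity (dens false)).map (xof false)) =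
      volume.restrict (D.core ∩ Metric.closedBall 0 R0) := by
    have e1 : dens false = fun _ => 1 := rfl
    have e2 : xof false = id := rfl
    rw [e1, e2, Measure.map_id, withDensity_const, one_smul]
    rfl
  have h2 : (((volume.restrict (zone D R0 true)).withDensity (dens true)).map (xof true)) =
      volume.restrict {x : ℂ | R0 < ‖x‖} := inv_meas hR
  rw [h1, h2]
  have hd : Disjoint (D.core ∩ Metric.closedBall 0 R0) {x : ℂ | R0 < ‖x‖} := by
    rw [Set.disjoint_left]
    rintro x ⟨_, hx⟩ hx2
    rw [Metric.mem_closedBall, dist_zero_right] at hx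
    exact absurd hx2 (not_lt.2 hx)
  have hm : MeasurableSet {x : ℂ | R0 < ‖x‖} := measurableSet_lt measurable_const measurable_norm
  rw [← Measure.restrict_union hd hm]
  refine congrArg _ ?_
  ext x
  constructor
  · intro hx
    rcases le_or_gt ‖x‖ R0 with h | h
    · left
      refine ⟨hx, ?_⟩
      rw [Metric.mem_closedBall, dist_zero_right]
      exact h
    · right
      exact h
  · rintro (h | h)
    · exact h.1
    · exact far_sub_core hball h

/-- Several core marks. -/
theorem core_zones_pi {J : Type*} [Fintype J] [DecidableEq J] (hR : 0 < R0)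
    (hball : ∀ k, ell (D.e k) (D.ε k) (D.c k) ⊆ Metric.closedBall 0 R0) :
    (volume.restrict (Set.univ.pi fun _ : J => D.core) : Measure (J → ℂ)) =
      ∑ far : J → Bool, ((volume.restrict (Set.univ.pi fun j => zone D R0 (far j))).withDensity
        (fun w => ∏ j, dens (far j) (w j))).map (fun w j => xof (far j) (w j)) := by
  have hs : ∀ b : Bool, SigmaFinite
      (((volume.restrict (zone D R0 b)).withDensity (dens b)).map (xof b)) := by
    intro b
    cases b
    · have e2 : xof false = id := rfl
      rw [e2, Measure.map_id]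
      infer_instance
    · have h2 : (((volume.restrict (zone D R0 true)).withDensity (dens true)).map (xof true)) =
        volume.restrict {x : ℂ | R0 < ‖x‖} := inv_meas hR
      rw [h2]
      infer_instance
  rw [volume_pi, Measure.restrict_pi_pi]
  have h := pi_sum_bool (X := fun _ : J => ℂ) (fun b (_ : J) =>
    (((volume.restrict (zone D R0 b)).withDensity (dens b)).map (xof b)))
  rw [← core_zones hR hball] at h
  rw [h]
  refine Finset.sum_congr rfl fun far _ => ?_
  rw [Measure.restrict_pi_pi, ← pi_withDensity (X := fun _ : J => ℂ) _ _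
    (fun j => measurable_dens (far j))]
  exact (Measure.pi_map_pi (X := fun _ : J => ℂ) (Y := fun _ : J => ℂ)
    (f := fun j => xof (far j)) (fun j => (measurable_xof (far j)).aemeasurable)).symm

end One

variable [Fintype ι] [DecidableEq ι] [Fintype K] [DecidableEq K]

section Reg

variable (R : Reg ι K) (D : Necks K) (R0 : ℝ) (far : R.Kc → Bool)

/-- The measure of a region in the coordinates `((u, θ), w)`, with zones. -/
noncomputable def measZ : Measure (((R.Gf → ℝ) × (R.Gf → ℝ)) × (R.Kc → ℂ)) :=
  (((volume.restrict (R.dom D)).prod (volume.restrict R.box)).prod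
    (volume.restrict (Set.univ.pi fun j => zone D R0 (far j))))

/-- The same with the density of the far marks. -/
noncomputable def measF : Measure (((R.Gf → ℝ) × (R.Gf → ℝ)) × (R.Kc → ℂ)) :=
  (measZ R D R0 far).withDensity fun p => ∏ j, dens (far j) (p.2 j)

/-- From the zone coordinates to the `x` coordinates. -/
noncomputable def toX (p : ((R.Gf → ℝ) × (R.Gf → ℝ)) × (R.Kc → ℂ)) :
    ((R.Gf → ℝ) × (R.Gf → ℝ)) × (R.Kc → ℂ) :=
  (p.1, fun j => xof (far j) (p.2 j))

theorem measurable_toX : Measurable (toX R far) :=
  measurable_fst.prodMk (measurable_pi_lambda _ fun j =>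
    (measurable_xof (far j)).comp ((measurable_pi_apply j).comp measurable_snd))

theorem measurable_densProd :
    Measurable fun p : ((R.Gf → ℝ) × (R.Gf → ℝ)) × (R.Kc → ℂ) => ∏ j, dens (far j) (p.2 j) :=
  Finset.measurable_prod _ fun j _ =>
    (measurable_dens (far j)).comp ((measurable_pi_apply j).comp measurable_snd)

end Reg

/-- **Near and far zones of the core marks.** -/
theorem meas_far (R : Reg ι K) (D : Necks K) {R0 : ℝ} (hR : 0 < R0)
    (hball : ∀ k, ell (D.e k) (D.ε k) (D.c k) ⊆ Metric.closedBall 0 R0) :
    R.meas D = ∑ far : R.Kc → Bool, (measF R D R0 far).map (toX R far) := by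
  have h : R.meas D = ((volume.restrict (R.dom D)).prod (volume.restrict R.box)).prod
      (∑ far : R.Kc → Bool, ((volume.restrict (Set.univ.pi fun j => zone D R0 (far j))).withDensity
        (fun w => ∏ j, dens (far j) (w j))).map (fun w j => xof (far j) (w j))) := by
    rw [← core_zones_pi hR hball]
    rfl
  rw [h, ← Measure.sum_fintype, Measure.prod_sum_right, Measure.sum_fintype]
  refine Finset.sum_congr rfl fun far _ => ?_
  have hm : Measurable fun w : R.Kc → ℂ => ∏ j, dens (far j) (w j) :=
    Finset.measurable_prod _ fun j _ => (measurable_dens (far j)).comp (measurable_pi_apply j)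
  have hx : Measurable fun (w : R.Kc → ℂ) (j : R.Kc) => xof (far j) (w j) :=
    measurable_pi_lambda _ fun j => (measurable_xof (far j)).comp (measurable_pi_apply j)
  rw [measF, measZ, ← prod_withDensity_right hm]
  have h2 := Measure.map_prod_map
    ((volume.restrict (R.dom D)).prod (volume.restrict R.box))
    ((volume.restrict (Set.univ.pi fun j => zone D R0 (far j))).withDensity
        (fun w : R.Kc → ℂ => ∏ j, dens (far j) (w j))) measurable_id hx
  rw [Measure.map_id] at h2
  exact h2

section Cor

variable (R : Reg ι K) (D : Necks K) {R0 : ℝ} (hR : 0 < R0)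
    (hball : ∀ k, ell (D.e k) (D.ε k) (D.c k) ⊆ Metric.closedBall 0 R0)

include hR hball

/-- Composition with a density depending on the neck coordinates (Jacobian) and with any map
(position of the marks). -/
theorem map_withDensity_far {β : Type*} [MeasurableSpace β]
    {g : (R.Gf → ℝ) × (R.Gf → ℝ) → ℝ≥0∞} (hg : Measurable g)
    {Φ : ((R.Gf → ℝ) × (R.Gf → ℝ)) × (R.Kc → ℂ) → β} (hΦ : Measurable Φ) :
    ((R.meas D).withDensity fun p => g p.1).map Φ =
      ∑ far : R.Kc → Bool, ((measZ R D R0 far).withDensity
        fun p => g p.1 * ∏ j, dens (far j) (p.2 j)).map (Φ ∘ toX R far) := by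
  have hg1 : Measurable fun p : ((R.Gf → ℝ) × (R.Gf → ℝ)) × (R.Kc → ℂ) => g p.1 :=
    hg.comp measurable_fst
  rw [meas_far R D hR hball]
  ext s hs
  rw [Measure.map_apply hΦ hs, withDensity_apply _ (hΦ hs), Measure.finsetSum_apply]
  rw [← Measure.sum_fintype, Measure.restrict_sum _ (hΦ hs), lintegral_sum_measure,
    tsum_fintype]
  refine Finset.sum_congr rfl fun far _ => ?_
  have hX := measurable_toX R far
  rw [Measure.map_apply (hΦ.comp hX) hs, withDensity_apply _ ((hΦ.comp hX) hs),
    Measure.restrict_map hX (hΦ hs), lintegral_map hg1 hX, measF,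
    restrict_withDensity (hX (hΦ hs))]
  refine (lintegral_withDensity_eq_lintegral_mul _ (measurable_densProd R far)
    (hg1.comp hX)).trans ?_
  exact lintegral_congr fun p => mul_comm _ _

/-- Lebesgue integral form. -/
theorem lintegral_far {f : ((R.Gf → ℝ) × (R.Gf → ℝ)) × (R.Kc → ℂ) → ℝ≥0∞} (hf : Measurable f) :
    ∫⁻ p, f p ∂(R.meas D) = ∑ far : R.Kc → Bool,
      ∫⁻ p, (∏ j, dens (far j) (p.2 j)) * f (toX R far p) ∂(measZ R D R0 far) := by
  rw [meas_far R D hR hball, ← Measure.sum_fintype, lintegral_sum_measure, tsum_fintype]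
  refine Finset.sum_congr rfl fun far _ => ?_
  have hX := measurable_toX R far
  rw [lintegral_map hf hX, measF]
  exact lintegral_withDensity_eq_lintegral_mul _ (measurable_densProd R far) (hf.comp hX)

end Cor

/-- The real density. -/
noncomputable def densR (b : Bool) (w : ℂ) : ℝ := if b then (‖w‖ ^ 4)⁻¹ else 1

theorem densR_nonneg (b : Bool) (w : ℂ) : 0 ≤ densR b w := by
  cases b
  · exact zero_le_one
  · exact inv_nonneg.2 (by positivity)

theorem dens_eq (b : Bool) (w : ℂ) : dens b w = ENNReal.ofReal (densR b w) := by
  cases b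
  · exact ENNReal.ofReal_one.symm
  · rfl

theorem toReal_dens (b : Bool) (w : ℂ) : (dens b w).toReal = densR b w := by
  rw [dens_eq, ENNReal.toReal_ofReal (densR_nonneg b w)]

section CorInt

variable (R : Reg ι K) (D : Necks K) {R0 : ℝ} {E : Type*} [NormedAddCommGroup E] [NormedSpace ℝ E]
    {f : ((R.Gf → ℝ) × (R.Gf → ℝ)) × (R.Kc → ℂ) → E}

theorem integrable_measF (far : R.Kc → Bool) (hf : StronglyMeasurable f) :
    Integrable f ((measF R D R0 far).map (toX R far)) ↔
      Integrable (fun p => (∏ j, densR (far j) (p.2 j)) • f (toX R far p))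
        (measZ R D R0 far) := by
  have hX := measurable_toX R far
  rw [integrable_map_measure hf.aestronglyMeasurable hX.aemeasurable, measF,
    integrable_withDensity_iff_integrable_smul' (measurable_densProd R far)
      (Filter.Eventually.of_forall fun p =>
        ENNReal.prod_lt_top fun j _ => (dens_ne_top (far j) (p.2 j)).lt_top)]
  have : (fun p : ((R.Gf → ℝ) × (R.Gf → ℝ)) × (R.Kc → ℂ) =>
      (∏ j, dens (far j) (p.2 j)).toReal • (f ∘ toX R far) p) =
      fun p => (∏ j, densR (far j) (p.2 j)) • f (toX R far p) := by
    funext p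
    rw [ENNReal.toReal_prod]
    simp only [toReal_dens]
    rfl
  rw [this]

theorem integral_measF (far : R.Kc → Bool) (hf : StronglyMeasurable f) :
    ∫ p, f p ∂((measF R D R0 far).map (toX R far)) =
      ∫ p, (∏ j, densR (far j) (p.2 j)) • f (toX R far p) ∂(measZ R D R0 far) := by
  have hX := measurable_toX R far
  rw [integral_map hX.aemeasurable hf.aestronglyMeasurable, measF,
    integral_withDensity_eq_integral_toReal_smul (measurable_densProd R far)
      (Filter.Eventually.of_forall fun p =>
        ENNReal.prod_lt_top fun j _ => (dens_ne_top (far j) (p.2 j)).lt_top)]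
  refine integral_congr_ae (Filter.Eventually.of_forall fun p => ?_)
  show (∏ j, dens (far j) (p.2 j)).toReal • f (toX R far p) = _
  rw [ENNReal.toReal_prod]
  simp only [toReal_dens]

variable (hR : 0 < R0) (hball : ∀ k, ell (D.e k) (D.ε k) (D.c k) ⊆ Metric.closedBall 0 R0)

include hR hball

/-- Integrability, zone by zone. -/
theorem integrable_far (hf : StronglyMeasurable f) :
    Integrable f (R.meas D) ↔ ∀ far : R.Kc → Bool,
      Integrable (fun p => (∏ j, densR (far j) (p.2 j)) • f (toX R far p))
        (measZ R D R0 far) := by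
  rw [meas_far R D hR hball, integrable_finsetSum_measure]
  simp only [Finset.mem_univ, forall_const]
  exact forall_congr' fun far => integrable_measF R D far hf

/-- Bochner integral form. -/
theorem integral_far (hf : StronglyMeasurable f) (hi : Integrable f (R.meas D)) :
    ∫ p, f p ∂(R.meas D) = ∑ far : R.Kc → Bool,
      ∫ p, (∏ j, densR (far j) (p.2 j)) • f (toX R far p) ∂(measZ R D R0 far) := by
  rw [meas_far R D hR hball] at hi ⊢
  rw [integral_finsetSum_measure]
  · exact Finset.sum_congr rfl fun far _ => integral_measF R D far hf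
  · intro far hfar
    exact (integrable_finsetSum_measure.1 hi) far hfar

end CorInt

end Vale.Agent.P273.H883
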