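import Vale.Agent.P273.H183.Open
import Vale.Agent.P273.H95.Wall
import Vale.Agent.P273.H724.Dict
import Vale.Agent.P273.H948.State

/-! Marks of the start family in all charts over an open base (general form). -/

noncomputable section

namespace Vale.Agent.P273.H883

open Set Filter
open scoped Topology
open Vale.Agent.P273
open Vale.Agent.P273.H948 (Surf PFam IsModel IsSec State)
open Vale.Agent.P273.H183

variable {n : ℕ} {L : Type}

/-- Local data: an open base `W`, coefficients `ea`, positions `za j` in the chart `S j` and sheets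
`V j`. -/
structure LocG (W : Set (Fin n → ℂ)) (ea : (Fin n → ℂ) → Fin 6 → ℂ) (S : L → Bool)
    (za V : L → (Fin n → ℂ) → ℂ) : Prop where
  opn : IsOpen W
  ana : ∀ b ∈ W, AnalyticAt ℂ ea b
  k6 : ∀ b ∈ W, ea b ∈ H183.K6
  anz : ∀ j, ∀ b ∈ W, AnalyticAt ℂ (za j) b
  anv : ∀ j, ∀ b ∈ W, AnalyticAt ℂ (V j) b
  sq : ∀ j, ∀ b ∈ W, V j b ^ 2 = H95.pol (S j) (ea b) (za j b)

variable {W : Set (Fin n → ℂ)} {ea : (Fin n → ℂ) → Fin 6 → ℂ} {S : L → Bool}
    {za V : L → (Fin n → ℂ) → ℂ}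

/-- The positions of the marks. -/
def Pg (W : Set (Fin n → ℂ)) (ea : (Fin n → ℂ) → Fin 6 → ℂ) (S : L → Bool)
    (za V : L → (Fin n → ℂ) → ℂ) [Nonempty (tot W ea)] (j : L) (b : Fin n → ℂ) : tot W ea :=
  bif S j then secF (za j) (V j) b else secA (za j) (V j) b

namespace LocG

theorem mono (D : LocG W ea S za V) {W' : Set (Fin n → ℂ)} (h : IsOpen W') (hW : W' ⊆ W) :
    LocG W' ea S za V :=
  ⟨h, fun b hb => D.ana b (hW hb), fun b hb => D.k6 b (hW hb), fun j b hb => D.anz j b (hW hb),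
    fun j b hb => D.anv j b (hW hb), fun j b hb => D.sq j b (hW hb)⟩

variable (D : LocG W ea S za V)
include D

/-- The surface. -/
def S0 : Surf n := startS W ea D.opn D.ana D.k6

/-- The family. -/
def F : PFam n := startP W ea D.opn D.ana D.k6

theorem F_B : D.F.B = W := rfl

theorem nonempty {c : Fin n → ℂ} (hc : c ∈ W) : Nonempty (tot W ea) :=
  ⟨((D.F.conn c hc).nonempty).some⟩

theorem mem_aff {j : L} (hj : S j = false) {b : Fin n → ℂ} (hb : b ∈ W) :
    (b, za j b, V j b) ∈ Zaff W ea := by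
  refine ⟨hb, ?_⟩
  have := D.sq j b hb
  rw [hj, H724.pol_false] at this
  exact this

theorem mem_far {j : L} (hj : S j = true) {b : Fin n → ℂ} (hb : b ∈ W) :
    (b, za j b, V j b) ∈ Zfar W ea := by
  refine ⟨hb, ?_⟩
  have := D.sq j b hb
  rw [hj, H724.pol_true] at this
  exact this

variable [Nonempty (tot W ea)]

theorem Pg_aff {j : L} (hj : S j = false) {b : Fin n → ℂ} (hb : b ∈ W) :
    Pg W ea S za V j b = pA b (za j b) (V j b) (D.mem_aff hj hb) := by
  rw [Pg, hj]; exact secA_eq (D.mem_aff hj hb)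

theorem Pg_far {j : L} (hj : S j = true) {b : Fin n → ℂ} (hb : b ∈ W) :
    Pg W ea S za V j b = pF b (za j b) (V j b) (D.mem_far hj hb) := by
  rw [Pg, hj]; exact secF_eq (D.mem_far hj hb)

theorem isSec (j : L) : IsSec D.F.S W (Pg W ea S za V j) := by
  rcases hj : S j with _ | _
  · have : Pg W ea S za V j = secA (za j) (V j) := by funext b; rw [Pg, hj]; rfl
    rw [this]
    exact isSec_secA D.opn D.ana D.k6 D.opn subset_rfl (D.anz j) (D.anv j)
      (fun b hb => (D.mem_aff hj hb).2)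
  · have : Pg W ea S za V j = secF (za j) (V j) := by funext b; rw [Pg, hj]; rfl
    rw [this]
    exact isSec_secF D.opn D.ana D.k6 D.opn subset_rfl (D.anz j) (D.anv j)
      (fun b hb => (D.mem_far hj hb).2)

theorem smooth_of_ne {j : L} {b : Fin n → ℂ} (hb : b ∈ W) (h0 : V j b ≠ 0) :
    D.F.S.SmoothAt (Pg W ea S za V j b) := by
  rcases hj : S j with _ | _
  · rw [D.Pg_aff hj hb]
    refine smooth_aff D.opn D.ana D.k6 (ptA_mem _) (Or.inl ?_)
    change (cA (ptA _)).2.2 ≠ 0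
    rw [cA_ptA]
    exact h0
  · rw [D.Pg_far hj hb]
    refine smooth_far D.opn D.ana D.k6 (ptF_mem _) ?_
    change (cF (ptF _)).2.2 ≠ 0
    rw [cF_ptF]
    exact h0

theorem smooth_of_sx1 {j : L} (hj : S j = false) {b : Fin n → ℂ} (hb : b ∈ W)
    (h0 : H183.sx1 (ea b) (za j b) ≠ 0) : D.F.S.SmoothAt (Pg W ea S za V j b) := by
  rw [D.Pg_aff hj hb]
  refine smooth_aff D.opn D.ana D.k6 (ptA_mem _) (Or.inr ?_)
  have h1 : xC (pA b (za j b) (V j b) (D.mem_aff hj hb)) = za j b := by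
    change (cA (ptA _)).2.1 = _
    rw [cA_ptA]
  have h2 : pr (pA b (za j b) (V j b) (D.mem_aff hj hb)) = b := rfl
  rw [h1, h2]
  exact h0

/-- When two marks coincide. -/
theorem Pg_eq_iff (i j : L) {b : Fin n → ℂ} (hb : b ∈ W) :
    Pg W ea S za V i b = Pg W ea S za V j b ↔
      H95.Same (S i) (za i b) (V i b) (S j) (za j b) (V j b) := by
  have key : ∀ (z : Zaff W ea) (z' : Zfar W ea), ptA z = ptF z' ↔
      z.1.1 = z'.1.1 ∧ z.1.2.1 * z'.1.2.1 = 1 ∧ z'.1.2.2 = z.1.2.2 * z'.1.2.1 ^ 3 := by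
    rintro ⟨⟨b, x, y⟩, hz⟩ ⟨⟨b', w, u⟩, hz'⟩
    simp only
    constructor
    · intro e
      have hA : ptA ⟨(b, x, y), hz⟩ ∈ (aff : Set (tot W ea)) := ptA_mem _
      have hF : ptA ⟨(b, x, y), hz⟩ ∈ (far : Set (tot W ea)) := e ▸ ptF_mem _
      have h0 : x ≠ 0 := by
        have := (far_iff hA).1 hF
        rw [xC, cA_ptA] at this
        exact this
      have h1 := cF_eq_tr hA hF
      rw [cA_ptA, e, cF_ptF] at h1
      simp only [tr, Prod.mk.injEq] at h1
      obtain ⟨h2, h3, h4⟩ := h1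
      refine ⟨h2.symm, ?_, ?_⟩
      · rw [h3, mul_inv_cancel₀ h0]
      · rw [h3, h4]; field_simp
    · rintro ⟨rfl, h1, h2⟩
      have h0 : x ≠ 0 := left_ne_zero_of_mul_eq_one h1
      have h3 : w = x⁻¹ := by rw [eq_comm]; exact inv_eq_of_mul_eq_one_right h1
      have h4 : tr (b, x, y) = (b, w, u) := by
        simp only [tr]
        rw [h2, h3]
        refine Prod.ext rfl (Prod.ext rfl ?_)
        simp only
        field_simp
      apply Subtype.ext
      change emb (b, x, y) = emb' (b, w, u)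
      rw [← h4, emb'_tr h0]
  rcases hi : S i with _ | _ <;> rcases hj : S j with _ | _
  · rw [D.Pg_aff hi hb, D.Pg_aff hj hb, pA_inj]
    simp [H95.Same]
  · rw [D.Pg_aff hi hb, D.Pg_far hj hb, pA, pF, key]
    simp [H95.Same]
  · rw [D.Pg_far hi hb, D.Pg_aff hj hb, eq_comm, pA, pF, key]
    simp only [H95.Same, true_and]
    constructor
    · rintro ⟨h2, h3⟩
      refine ⟨by rw [mul_comm]; exact h2, ?_⟩
      rw [h3]
      have : za i b ^ 3 * za j b ^ 3 = 1 := by
        rw [← mul_pow, mul_comm, h2, one_pow]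
      rw [mul_assoc, this, mul_one]
    · rintro ⟨h2, h3⟩
      refine ⟨by rw [mul_comm]; exact h2, ?_⟩
      rw [h3]
      have : za j b ^ 3 * za i b ^ 3 = 1 := by
        rw [← mul_pow, mul_comm, h2, one_pow]
      rw [mul_assoc, this, mul_one]
  · rw [D.Pg_far hi hb, D.Pg_far hj hb, pF_inj]
    simp [H95.Same]

/-- The initial state. -/
def st : State D.F.S (Pg W ea S za V) ∅ := State.init D.F (Pg W ea S za V) D.isSec

end LocG

end Vale.Agent.P273.H883

end
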