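import Vale.Agent.P273.H883.Open1
import Vale.Agent.P273.H883.LocG
import Vale.Agent.P273.H888.PosP
import Vale.Agent.P273.H768.Word

/-! One node: the start state is good at an admissible point. -/

noncomputable section

namespace Vale.Agent.P273.H883

open Set Filter
open scoped Topology
open Vale.Agent.P273
open Vale.Agent.P273.H948 (Surf PFam IsModel IsSec State)
open Vale.Agent.P273.H183 (tot startS startP pr xC yC aff ptA cA)
open Vale.Agent.P273.H768 (Lab Sm Nd Good)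
open Vale.Agent.P273.H888 (posP)

variable {n : ℕ} (R : H95.Region1) (S : H95.L → Bool) (κ : (Fin n → ℂ) ≃L[ℂ] R.Sp)
  (p0 : R.Sp) (g0 : ℂ) (v0 : H95.L → ℂ)

/-- The coefficients in the coordinates `κ`. -/
def ea1 (b : Fin n → ℂ) : Fin 6 → ℂ := R.cf (κ b)
/-- The positions. -/
def za1 (j : H95.L) (b : Fin n → ℂ) : ℂ := R.pos (κ b) j
/-- The sheets along the branch through `g0`, `v0` at `p0`. -/
def V1 (j : H95.L) (b : Fin n → ℂ) : ℂ :=
  R.sht (κ b) (gb R p0 g0 (κ b)) (vb R S p0 v0 (κ b)) j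

/-- Types, ranks and transition factors. -/
def lab1 : Lab H95.L n where
  typ j := j.2
  rk := R.rk
  μ k l b := mu R (κ b) (R.rk k) (R.rk l)

variable {R S κ p0 g0 v0}

theorem an_comp_κ {F : Type*} [NormedAddCommGroup F] [NormedSpace ℂ F] {f : R.Sp → F}
    {b : Fin n → ℂ} (hf : AnalyticAt ℂ f (κ b)) : AnalyticAt ℂ (fun b => f (κ b)) b :=
  AnalyticAt.comp hf (ContinuousLinearMap.analyticAt (κ : (Fin n → ℂ) →L[ℂ] R.Sp) b)

theorem an_mu {p : R.Sp} (i j : ℕ) : AnalyticAt ℂ (fun p : R.Sp => mu R p i j) p := by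
  refine Finset.analyticAt_fun_prod _ fun g _ => ?_
  by_cases hg : i < (g : ℕ) ∧ (g : ℕ) ≤ j
  · simp only [if_pos hg]; exact an_gap g
  · simp only [if_neg hg]; exact analyticAt_const

theorem mu_mul {a b c : ℕ} (hab : a ≤ b) (hbc : b ≤ c) (p : R.Sp) :
    mu R p a c = mu R p a b * mu R p b c := by
  simp only [mu, ← Finset.prod_mul_distrib]
  refine Finset.prod_congr rfl fun g _ => ?_
  by_cases h1 : a < (g : ℕ)
  · by_cases h2 : (g : ℕ) ≤ b
    · rw [if_pos ⟨h1, h2.trans hbc⟩, if_pos ⟨h1, h2⟩, if_neg (fun h => absurd h.1 (not_lt.2 h2)),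
        mul_one]
    · by_cases h3 : (g : ℕ) ≤ c
      · rw [if_pos ⟨h1, h3⟩, if_neg (fun h => h2 h.2), if_pos ⟨not_le.1 h2, h3⟩, one_mul]
      · rw [if_neg (fun h => h3 h.2), if_neg (fun h => h2 h.2), if_neg (fun h => h3 h.2), one_mul]
  · rw [if_neg (fun h => h1 h.1), if_neg (fun h => h1 h.1),
      if_neg (fun h => h1 (hab.trans_lt h.1)), one_mul]

/-- Local data near an admissible point. -/
theorem exists_locG (hS : ∀ j, S j = true → R.nk j = false) {c : Fin n → ℂ} (hc : κ c = p0)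
    (h : R.ok S p0 g0 v0) : ∃ W : Set (Fin n → ℂ),
      LocG W (ea1 R κ) S (za1 R κ) (V1 R S κ p0 g0 v0) ∧ c ∈ W ∧
      ∀ b ∈ W, R.ok S (κ b) (gb R p0 g0 (κ b)) (vb R S p0 v0 (κ b)) := by
  subst hc
  have h1 : ∀ᶠ b in 𝓝 c, R.ok S (κ b) (gb R (κ c) g0 (κ b)) (vb R S (κ c) v0 (κ b)) :=
    (κ.continuous.continuousAt (x := c)).eventually (ok_branch h)
  have h2 : ∀ᶠ b in 𝓝 c, ∀ j, AnalyticAt ℂ (V1 R S κ (κ c) g0 v0 j) b := by
    rw [eventually_all]
    intro j
    have : AnalyticAt ℂ (V1 R S κ (κ c) g0 v0 j) c := an_comp_κ (an_sht h j)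
    exact this.eventually_analyticAt
  obtain ⟨W, h3, h4, h5⟩ := eventually_nhds_iff.1 (h1.and h2)
  exact ⟨W, ⟨h4, fun b _ => an_comp_κ an_cf, fun b hb => ok_K6 (h3 b hb).1,
    fun j b _ => an_comp_κ (an_pos j), fun j b hb => (h3 b hb).2 j,
    fun j b hb => ok_sht_sq hS (h3 b hb).1 j⟩, h5, fun b hb => (h3 b hb).1⟩

/-- Smooth or at the node. -/
theorem neck_sx1 {p : R.Sp} {g : ℂ} {v : H95.L → ℂ} {j : H95.L} (hj : R.nk j = true)
    (h : R.ok S p g v) (h1 : R.XX p (R.rk j) = R.YY p (R.rk j)) (h2 : R.XX p (R.rk j) ≠ 0) :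
    H183.sx1 (R.cf p) (R.pos p j) ≠ 0 := by
  intro h0
  have e0 : H183.sx (R.cf p) (R.pos p j) = 0 := by
    rw [sx_cf, neck_quad hj, h1, sub_self]; ring
  have hx : R.pos p j - R.ctr p = R.XX p (R.rk j) := by rw [pos_neck hj, ← h1]; ring
  have he : (R.XX p (R.rk j)) ^ 2 = R.eps p := by
    rw [← XX_mul_YY p (R.rk j), ← h1]; ring
  have e1 : ∀ y, (y - R.pos p j) * ((y + R.pos p j - 2 * R.ctr p) *
      ∏ l : Fin 4, (y - R.oth p l)) = (y - R.pos p j) *
        (H183.hx (R.cf p) (R.pos p j) y * (y - R.pos p j)) := by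
    intro y
    have h3 := H183.sx_eq (R.cf p) (R.pos p j) y
    rw [e0, h0, sx_cf] at h3
    have h4 : R.eps p = (R.pos p j - R.ctr p) ^ 2 := by rw [hx, he]
    rw [h4] at h3
    linear_combination h3
  have hc1 : Continuous fun y => H183.hx (R.cf p) (R.pos p j) y * (y - R.pos p j) :=
    (continuous_hx _ _).mul (by fun_prop)
  have e2 := cancel_linear (f := fun y => (y + R.pos p j - 2 * R.ctr p) *
      ∏ l : Fin 4, (y - R.oth p l)) (by fun_prop) hc1 e1 (R.pos p j)
  simp only [sub_self, mul_zero] at e2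
  rcases mul_eq_zero.1 e2 with h3 | h3
  · apply h2
    rw [← hx]
    linear_combination h3 / 2
  · obtain ⟨l, -, hl⟩ := Finset.prod_eq_zero_iff.1 h3
    have h4 := neck_near hj (ok_neck h hj l).1 (ok_neck h hj l).2
    rw [sub_eq_zero.1 hl, norm_sub_rev] at h4
    have := norm_nonneg (R.ctr p - R.oth p l)
    linarith

/-! ### The neck model at the node -/

variable (R κ p0 g0)

/-- The function `G` with `y = G (X - Y) / 2`. -/
def G1 (z : (Fin n → ℂ) × ℂ) : ℂ :=
  gb R p0 g0 (κ z.1) * ∏ l : Fin 4,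
    H95.csq ((z.2 - R.oth (κ z.1) l) / (R.ctr (κ z.1) - R.oth (κ z.1) l))

variable {R κ p0 g0}

theorem G1_sq (h1 : ∀ l, R.ctr p0 ≠ R.oth p0 l)
    (hg : g0 ^ 2 = ∏ l : Fin 4, (R.ctr p0 - R.oth p0 l)) {b : Fin n → ℂ}
    (h2 : ∀ l, R.ctr (κ b) ≠ R.oth (κ b) l) (x : ℂ) :
    G1 R κ p0 g0 (b, x) ^ 2 = ∏ l : Fin 4, (x - R.oth (κ b) l) := by
  unfold G1
  rw [mul_pow, gb_sq h1 hg, ← Finset.prod_pow]
  simp only [csq_sq]
  rw [← Finset.prod_mul_distrib]
  refine Finset.prod_congr rfl fun l _ => ?_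
  have := sub_ne_zero.2 (h2 l)
  field_simp

theorem an_G1 {c : Fin n → ℂ} (h1 : ∀ l, R.ctr (κ c) ≠ R.oth (κ c) l) :
    AnalyticAt ℂ (G1 R κ (κ c) g0) (c, R.ctr (κ c)) := by
  have hf : AnalyticAt ℂ (Prod.fst : (Fin n → ℂ) × ℂ → Fin n → ℂ) (c, R.ctr (κ c)) :=
    analyticAt_fst
  have hcomp : ∀ {f : R.Sp → ℂ}, AnalyticAt ℂ f (κ c) →
      AnalyticAt ℂ (fun z : (Fin n → ℂ) × ℂ => f (κ z.1)) (c, R.ctr (κ c)) := by
    intro f hf'
    exact AnalyticAt.comp (g := fun b => f (κ b)) (f := Prod.fst) (an_comp_κ hf') hf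
  refine (hcomp (an_gb h1 g0)).mul (Finset.analyticAt_fun_prod _ fun l _ => ?_)
  refine AnalyticAt.fun_comp (g := H95.csq) (analyticAt_csq ?_) ?_
  · show (R.ctr (κ c) - R.oth (κ c) l) / (R.ctr (κ c) - R.oth (κ c) l) ∈ Complex.slitPlane
    rw [div_self (sub_ne_zero.2 (h1 l))]
    exact Complex.one_mem_slitPlane
  · exact (analyticAt_snd.sub (hcomp (an_oth l))).div
      ((hcomp an_ctr).sub (hcomp (an_oth l))) (sub_ne_zero.2 (h1 l))

theorem G1_nf (b : Fin n → ℂ) (j : H95.L) :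
    G1 R κ p0 g0 (b, R.pos (κ b) j) = gb R p0 g0 (κ b) * nf R (κ b) j := rfl

/-- The position of a neck mark in neck coordinates. -/
theorem neck_coord {j : H95.L} (hj : R.nk j = true) {b : Fin n → ℂ}
    (h : R.ok S (κ b) (gb R p0 g0 (κ b)) (vb R S p0 v0 (κ b))) :
    R.pos (κ b) j - R.ctr (κ b) + V1 R S κ p0 g0 v0 j b / G1 R κ p0 g0 (b, R.pos (κ b) j) =
        R.XX (κ b) (R.rk j) ∧
      R.pos (κ b) j - R.ctr (κ b) - V1 R S κ p0 g0 v0 j b / G1 R κ p0 g0 (b, R.pos (κ b) j) =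
        R.YY (κ b) (R.rk j) := by
  have h0 : gb R p0 g0 (κ b) * nf R (κ b) j ≠ 0 :=
    mul_ne_zero (sheet_ne (ok_sheet h) (ok_ctr h)) (nf_ne hj (ok_neck h hj))
  have h1 : V1 R S κ p0 g0 v0 j b / G1 R κ p0 g0 (b, R.pos (κ b) j) =
      (R.XX (κ b) (R.rk j) - R.YY (κ b) (R.rk j)) / 2 := by
    rw [G1_nf, V1, sht_neck hj]
    change gb R p0 g0 (κ b) * nf R (κ b) j * _ / 2 / _ = _
    rw [div_div, mul_comm (2 : ℂ), mul_div_mul_left _ _ h0]
  rw [h1, pos_neck hj]
  constructor <;> ring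

/-- **The start state is good.** -/
theorem good_start1 (hS : ∀ j, S j = true → R.nk j = false) {c : Fin n → ℂ} (hc : κ c = p0)
    {W : Set (Fin n → ℂ)} (D : LocG W (ea1 R κ) S (za1 R κ) (V1 R S κ p0 g0 v0)) (hcW : c ∈ W)
    (hok : ∀ b ∈ W, R.ok S (κ b) (gb R p0 g0 (κ b)) (vb R S p0 v0 (κ b)))
    (h : R.ok S p0 g0 v0) [Nonempty (tot W (ea1 R κ))] :
    Good (X₀ := startS W (ea1 R κ) D.opn D.ana D.k6) (lab1 R κ)
      (startS W (ea1 R κ) D.opn D.ana D.k6) id
      (fun j => posP (S j) (za1 R κ j) (V1 R S κ p0 g0 v0 j)) c := by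
  subst hc
  have hsame : ∀ i j : H95.L, ∀ b ∈ W,
      (posP (S i) (za1 R κ i) (V1 R S κ (κ c) g0 v0 i) b : tot W (ea1 R κ)) =
        posP (S j) (za1 R κ j) (V1 R S κ (κ c) g0 v0 j) b ↔
      H95.Same (S i) (R.pos (κ b) i) (V1 R S κ (κ c) g0 v0 i b) (S j) (R.pos (κ b) j)
        (V1 R S κ (κ c) g0 v0 j b) :=
    fun i j b hb => H888.posP_eq_iff hb (D.sq i b hb) (D.sq j b hb)
  have hsame2 : ∀ i j : H95.L, R.nk i = true → R.nk j = true → ∀ b ∈ W,
      ((posP (S i) (za1 R κ i) (V1 R S κ (κ c) g0 v0 i) b : tot W (ea1 R κ)) =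
        posP (S j) (za1 R κ j) (V1 R S κ (κ c) g0 v0 j) b ↔
      (R.XX (κ b) (R.rk i) = R.XX (κ b) (R.rk j) ∧ R.YY (κ b) (R.rk i) = R.YY (κ b) (R.rk j))) := by
    intro i j hi hj b hb
    rw [hsame i j b hb, S_neck hS hi, S_neck hS hj, ← neck_same hi hj (hok b hb)]
    simp only [H95.Same, if_true]
    rfl
  have hokc := hok c hcW
  -- a core mark is never at the place of the centre
  have hcore : ∀ i j : H95.L, R.nk i = false → R.nk j = true → R.XX (κ c) (R.rk j) = 0 →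
      R.YY (κ c) (R.rk j) = 0 →
      (posP (S i) (za1 R κ i) (V1 R S κ (κ c) g0 v0 i) c : tot W (ea1 R κ)) ≠
        posP (S j) (za1 R κ j) (V1 R S κ (κ c) g0 v0 j) c := by
    intro i j hi hj hX hY he
    rw [hsame i j c hcW, S_neck hS hj] at he
    have h2 := (ok_core hokc hi).2
    have h3 : R.pos (κ c) j = R.ctr (κ c) := by rw [pos_neck hj, hX, hY]; ring
    rw [h3] at he
    by_cases hSi : S i = true
    · rw [hSi] at he
      rw [if_pos hSi] at h2
      simp only [H95.Same, Bool.true_eq_false, if_false] at he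
      have h4 : 1 - R.ctr (κ c) * R.pos (κ c) i = 0 := by linear_combination -he.1
      rw [h4, norm_zero, zero_pow two_ne_zero, zero_div] at h2
      exact absurd h2 (not_lt.2 (norm_nonneg _))
    · rw [if_neg hSi] at h2
      have hSi' : S i = false := by simpa using hSi
      rw [hSi'] at he
      simp only [H95.Same, if_true] at he
      rw [he.1, sub_self, norm_zero, zero_pow two_ne_zero, zero_div] at h2
      exact absurd h2 (not_lt.2 (norm_nonneg _))
  -- two neck marks of the same type at the same place are at the node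
  have hneck : ∀ i j : H95.L, i ≠ j → i.2 = j.2 → R.nk i = true → R.nk j = true →
      (posP (S i) (za1 R κ i) (V1 R S κ (κ c) g0 v0 i) c : tot W (ea1 R κ)) =
        posP (S j) (za1 R κ j) (V1 R S κ (κ c) g0 v0 j) c →
      R.XX (κ c) (R.rk j) = 0 ∧ R.YY (κ c) (R.rk j) = 0 := by
    have key : ∀ i j : H95.L, R.rk i < R.rk j → i.2 = j.2 → R.nk i = true → R.nk j = true →
        (R.XX (κ c) (R.rk i) = R.XX (κ c) (R.rk j) ∧ R.YY (κ c) (R.rk i) = R.YY (κ c) (R.rk j)) →
        R.XX (κ c) (R.rk i) = 0 ∧ R.YY (κ c) (R.rk j) = 0 := by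
      intro i j hr ht hi hj he
      rcases (neck_same_iff hi hj hr hokc).1 ((neck_same hi hj hokc).2 he) with h1 | h1
      · exact absurd h1 (hokc.2.2.2.2.2.2 i j hi hj ht hr)
      · exact h1
    intro i j hij ht hi hj he
    rw [hsame2 i j hi hj c hcW] at he
    rcases lt_trichotomy (R.rk i) (R.rk j) with hr | hr | hr
    · obtain ⟨h1, h2⟩ := key i j hr ht hi hj he
      exact ⟨he.1 ▸ h1, h2⟩
    · exact absurd (R.rk_inj i j hi hj hr) hij
    · obtain ⟨h1, h2⟩ := key j i hr ht.symm hj hi ⟨he.1.symm, he.2.symm⟩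
      exact ⟨h1, he.2 ▸ h2⟩
  intro j
  by_cases hnode : R.nk j = true ∧ R.XX (κ c) (R.rk j) = 0 ∧ R.YY (κ c) (R.rk j) = 0
  · -- at the node
    right
    obtain ⟨hj, hX, hY⟩ := hnode
    have hlab : ∀ k : H95.L, (posP (S k) (za1 R κ k) (V1 R S κ (κ c) g0 v0 k) c : tot W (ea1 R κ)) =
        posP (S j) (za1 R κ j) (V1 R S κ (κ c) g0 v0 j) c → R.nk k = true := by
      intro k hk
      cases hk2 : R.nk k with
      | true => rfl
      | false => exact absurd hk (hcore k j hk2 hj hX hY)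
    have hctr : ∀ b ∈ W, ∀ l, R.ctr (κ b) ≠ R.oth (κ b) l := fun b hb => ok_ctr (hok b hb)
    refine ⟨⟨?_, ?_, ?_, ?_⟩, ?_⟩
    · intro k hk l hl e
      exact R.rk_inj k l (hlab k hk) (hlab l hl) e
    · intro k _ l _ _
      exact an_comp_κ (an_mu _ _)
    · intro k _ l _ m _ h1 h2
      exact Eventually.of_forall fun b => mu_mul h1.le h2.le _
    · intro k hk l hl hkl hmu ht
      exact hokc.2.2.2.2.2.2 k l (hlab k hk) (hlab l hl) ht hkl hmu
    · have hSj := S_neck hS hj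
      have hmem : ((c, za1 R κ j c, V1 R S κ (κ c) g0 v0 j c) : (Fin n → ℂ) × ℂ × ℂ) ∈
          H183.Zaff W (ea1 R κ) := D.mem_aff hSj hcW
      have hpos : R.pos (κ c) j = R.ctr (κ c) := by rw [pos_neck hj, hX, hY]; ring
      have hP : (posP (S j) (za1 R κ j) (V1 R S κ (κ c) g0 v0 j) c : tot W (ea1 R κ)) =
          H183.pA c (za1 R κ j c) (V1 R S κ (κ c) g0 v0 j c) hmem := by
        rw [hSj]
        simp only [posP, Bool.false_eq_true, if_false]
        exact H183.secA_eq hmem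
      set P : tot W (ea1 R κ) := posP (S j) (za1 R κ j) (V1 R S κ (κ c) g0 v0 j) c with hPdef
      have hPaff : P ∈ (aff : Set (tot W (ea1 R κ))) := by rw [hP]; exact H183.ptA_mem _
      have hpr : pr P = c := by rw [hP]; rfl
      have hxC : xC P = R.ctr (κ c) := by
        rw [hP]
        change (cA (ptA _)).2.1 = _
        rw [H183.cA_ptA]
        exact hpos
      have hyC : yC P = 0 := by
        rw [hP]
        change (cA (ptA _)).2.2 = _
        rw [H183.cA_ptA]
        show R.sht (κ c) (gb R (κ c) g0 (κ c)) (vb R S (κ c) v0 (κ c)) j = 0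
        rw [sht_neck hj, hX, hY, sub_zero, mul_zero, zero_div]
      have hf : ∀ᶠ z in 𝓝 ((c, R.ctr (κ c)) : (Fin n → ℂ) × ℂ),
          H183.sx (ea1 R κ z.1) z.2 = ((z.2 - R.ctr (κ z.1)) ^ 2 - R.eps (κ z.1)) *
            G1 R κ (κ c) g0 z ^ 2 := by
        filter_upwards [continuousAt_fst.eventually (D.opn.mem_nhds hcW)] with z hz
        rw [G1_sq (ok_ctr h) (ok_sheet h).1 (hctr z.1 hz)]
        exact sx_cf R (κ z.1) z.2
      have hG0 : G1 R κ (κ c) g0 (c, R.ctr (κ c)) ≠ 0 := by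
        intro e
        have := G1_sq (κ := κ) (ok_ctr h) (ok_sheet h).1 (hctr c hcW) (R.ctr (κ c))
        rw [e, zero_pow two_ne_zero] at this
        exact Finset.prod_ne_zero_iff.2 (fun l _ => sub_ne_zero.2 (hctr c hcW l)) this.symm
      have hGan : AnalyticAt ℂ (G1 R κ (κ c) g0) (c, R.ctr (κ c)) := an_G1 (hctr c hcW)
      obtain ⟨U, hPU, hUaff, hmod⟩ := H183.start_neckModel D.opn D.ana D.k6 (P := P)
        (e := fun b => R.ctr (κ b)) (ε := fun b => R.eps (κ b)) (G := G1 R κ (κ c) g0)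
        hPaff (an_comp_κ an_ctr) (an_comp_κ an_eps) hyC (by rw [hpr, hxC]; exact hGan)
        (by rw [hpr, hxC]; exact hG0) (by rw [hpr, hxC]; exact hf)
      have huv : ∀ k, R.nk k = true → ∀ b ∈ W,
          xC (posP (S k) (za1 R κ k) (V1 R S κ (κ c) g0 v0 k) b : tot W (ea1 R κ)) =
              R.pos (κ b) k ∧
            yC (posP (S k) (za1 R κ k) (V1 R S κ (κ c) g0 v0 k) b : tot W (ea1 R κ)) =
              V1 R S κ (κ c) g0 v0 k b ∧
            pr (posP (S k) (za1 R κ k) (V1 R S κ (κ c) g0 v0 k) b : tot W (ea1 R κ)) = b := by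
        intro k hk b hb
        have hSk := S_neck hS hk
        have hm := D.mem_aff hSk hb
        have e : (posP (S k) (za1 R κ k) (V1 R S κ (κ c) g0 v0 k) b : tot W (ea1 R κ)) =
            H183.pA b (za1 R κ k b) (V1 R S κ (κ c) g0 v0 k b) hm := by
          rw [hSk]
          simp only [posP, Bool.false_eq_true, if_false]
          exact H183.secA_eq hm
        rw [e]
        refine ⟨?_, ?_, rfl⟩
        · change (cA (ptA _)).2.1 = _
          rw [H183.cA_ptA]
          rfl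
        · change (cA (ptA _)).2.2 = _
          rw [H183.cA_ptA]
      have hX' : ∀ k, R.nk k = true → ∀ b ∈ W,
          (fun Q => xC Q - (fun b => R.ctr (κ b)) (pr Q) + yC Q / G1 R κ (κ c) g0 (pr Q, xC Q))
            (posP (S k) (za1 R κ k) (V1 R S κ (κ c) g0 v0 k) b : tot W (ea1 R κ)) =
              R.XX (κ b) (R.rk k) := by
        intro k hk b hb
        obtain ⟨e1, e2, e3⟩ := huv k hk b hb
        simp only [e1, e2, e3]
        exact (neck_coord hk (hok b hb)).1
      have hY' : ∀ k, R.nk k = true → ∀ b ∈ W,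
          (fun Q => xC Q - (fun b => R.ctr (κ b)) (pr Q) - yC Q / G1 R κ (κ c) g0 (pr Q, xC Q))
            (posP (S k) (za1 R κ k) (V1 R S κ (κ c) g0 v0 k) b : tot W (ea1 R κ)) =
              R.YY (κ b) (R.rk k) := by
        intro k hk b hb
        obtain ⟨e1, e2, e3⟩ := huv k hk b hb
        simp only [e1, e2, e3]
        exact (neck_coord hk (hok b hb)).2
      refine ⟨U, _, _, _, hPU, hmod, ?_, ?_, ?_, ?_⟩
      · exact (hX' j hj c hcW).trans hX
      · exact (hY' j hj c hcW).trans hY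
      · intro y hy h1 h2 h3
        exact H768.not_smooth h3 hmod hy h1 h2
      · intro k l hk hl hkl
        filter_upwards [D.opn.mem_nhds hcW] with b hb
        have hk' := hlab k hk
        have hl' := hlab l hl
        have hkl' : R.rk k < R.rk l := hkl
        exact ⟨(hX' l hl' b hb).trans ((XX_mu hkl'.le _).trans
            (congrArg (fun x => mu R (κ b) (R.rk k) (R.rk l) * x) (hX' k hk' b hb).symm)),
          (hY' k hk' b hb).trans ((YY_mu hkl'.le _).trans
            (congrArg (fun x => mu R (κ b) (R.rk k) (R.rk l) * x) (hY' l hl' b hb).symm))⟩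
  · -- a smooth point
    left
    refine ⟨?_, ?_⟩
    · cases hj : R.nk j with
      | false =>
        refine H888.smooth_posP D.opn D.ana D.k6 hcW (D.sq j c hcW) ?_
        show R.sht (κ c) (gb R (κ c) g0 (κ c)) (vb R S (κ c) v0 (κ c)) j ≠ 0
        rw [sht_core hj]
        exact (ok_core hokc hj).1
      | true =>
        by_cases hXY : R.XX (κ c) (R.rk j) = R.YY (κ c) (R.rk j)
        · have hX0 : R.XX (κ c) (R.rk j) ≠ 0 := fun e => hnode ⟨hj, e, hXY ▸ e⟩
          have h1 := neck_sx1 hj hokc hXY hX0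
          have hSj := S_neck hS hj
          have hm := D.mem_aff hSj hcW
          have e : (posP (S j) (za1 R κ j) (V1 R S κ (κ c) g0 v0 j) c : tot W (ea1 R κ)) =
              H183.pA c (za1 R κ j c) (V1 R S κ (κ c) g0 v0 j c) hm := by
            rw [hSj]
            simp only [posP, Bool.false_eq_true, if_false]
            exact H183.secA_eq hm
          show (startS W (ea1 R κ) D.opn D.ana D.k6).SmoothAt
            (posP (S j) (za1 R κ j) (V1 R S κ (κ c) g0 v0 j) c)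
          rw [e]
          refine H183.smooth_aff D.opn D.ana D.k6 (H183.ptA_mem _) (Or.inr ?_)
          change H183.sx1 _ (cA (ptA _)).2.1 ≠ 0
          rw [H183.cA_ptA]
          exact h1
        · refine H888.smooth_posP D.opn D.ana D.k6 hcW (D.sq j c hcW) ?_
          show R.sht (κ c) (gb R (κ c) g0 (κ c)) (vb R S (κ c) v0 (κ c)) j ≠ 0
          rw [sht_neck hj]
          have h0 : gb R (κ c) g0 (κ c) * nf R (κ c) j ≠ 0 :=
            mul_ne_zero (sheet_ne (ok_sheet hokc) (ok_ctr hokc)) (nf_ne hj (ok_neck hokc hj))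
          exact div_ne_zero (mul_ne_zero h0 (sub_ne_zero.2 hXY)) two_ne_zero
    · intro i hij he ht
      by_cases hn : R.nk i = true ∧ R.nk j = true
      · exact hnode ⟨hn.2, hneck i j hij ht hn.1 hn.2 he⟩
      · exact hokc.2.2.2.2.2.1 i j hij ht hn ((hsame i j c hcW).1 he)

end Vale.Agent.P273.H883

end
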