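import Vale.Agent.P273.H724.Dict

/-!
Region1 (one node): the curve with coefficients `R.cf p` and the positions of the marks.
-/

noncomputable section

namespace Vale.Agent.P273.H883

open Set Filter
open scoped Topology
open Vale.Agent.P273

/-! ### square root -/

theorem csq_sq (z : ℂ) : H95.csq z ^ 2 = z := by
  unfold H95.csq
  have h := Complex.cpow_nat_inv_pow z (n := 2) two_ne_zero
  have e : ((1 / 2 : ℂ)) = (((2 : ℕ) : ℂ))⁻¹ := by push_cast; norm_num
  rw [e]
  exact h

theorem analyticAt_csq {z : ℂ} (hz : z ∈ Complex.slitPlane) : AnalyticAt ℂ H95.csq z := by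
  unfold H95.csq
  exact analyticAt_id.cpow analyticAt_const hz

theorem csq_one : H95.csq 1 = 1 := by
  simp [H95.csq]

/-! ### polynomials -/

theorem sx_coeff {Q : Polynomial ℂ} (hm : Q.Monic) (hd : Q.natDegree = 6) (x : ℂ) :
    H183.sx (fun i : Fin 6 => Q.coeff i) x = Q.eval x := by
  conv_rhs => rw [hm.as_sum, hd]
  rw [← H724.sx_eq]
  simp only [H95.sx, Polynomial.eval_add, Polynomial.eval_pow, Polynomial.eval_X,
    Polynomial.eval_finsetSum, Polynomial.eval_mul, Polynomial.eval_C]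
  rw [Finset.sum_range]

/-- Cancelling a linear factor. -/
theorem cancel_linear {c : ℂ} {f g : ℂ → ℂ} (hf : Continuous f) (hg : Continuous g)
    (h : ∀ y, (y - c) * f y = (y - c) * g y) (y : ℂ) : f y = g y := by
  have hd : Dense ({c}ᶜ : Set ℂ) := dense_compl_singleton c
  have : EqOn f g {c}ᶜ := fun y hy => mul_left_cancel₀ (sub_ne_zero.2 hy) (h y)
  exact congrFun (Continuous.ext_on hd hf hg this) y

theorem continuous_hx (a : Fin 6 → ℂ) (c : ℂ) : Continuous (H183.hx a c) := by
  unfold H183.hx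
  fun_prop

/-- The coefficients of `((x-e)^2-ε) P(x)` have no triple roots if `P` has simple roots outside
the two roots of the first factor. -/
theorem mem_K6_of_factor {a : Fin 6 → ℂ} {e ε : ℂ} {P : ℂ → ℂ} (hPc : Continuous P)
    (ha : ∀ x, H183.sx a x = ((x - e) ^ 2 - ε) * P x)
    (hsep : ∀ x, P x = 0 → (x - e) ^ 2 - ε ≠ 0)
    (hsimple : ∀ x, P x = 0 → ∃ P1 : ℂ → ℂ, Continuous P1 ∧ P1 x ≠ 0 ∧ ∀ y, P y = (y - x) * P1 y) :
    a ∈ H183.K6 := by
  intro c h0 h1 h2
  have key : ∀ y, H183.sx a y = H183.hx a c y * (y - c) ^ 2 := by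
    intro y
    rw [H183.sx_eq a c y, h0, h1]
    ring
  have hq : (c - e) ^ 2 - ε = 0 ∨ P c = 0 := by
    have := ha c
    rw [h0] at this
    exact mul_eq_zero.1 this.symm
  rcases hq with hq | hq
  · have hPc0 : P c ≠ 0 := fun h => hsep c h hq
    have e1 : ∀ y, (y - c) * ((y + c - 2 * e) * P y) = (y - c) * (H183.hx a c y * (y - c)) := by
      intro y
      have h3 := ha y
      rw [key y] at h3
      linear_combination -h3 - P y * hq
    have hc1 : Continuous fun y => H183.hx a c y * (y - c) :=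
      (continuous_hx a c).mul (by fun_prop)
    have e2 : ∀ y, (y + c - 2 * e) * P y = H183.hx a c y * (y - c) :=
      cancel_linear (by fun_prop) hc1 e1
    have e3 := e2 c
    rw [sub_self, mul_zero] at e3
    have hce : c + c - 2 * e = 0 := (mul_eq_zero.1 e3).resolve_right hPc0
    have e4 : ∀ y, (y - c) * P y = (y - c) * H183.hx a c y := by
      intro y
      have := e2 y
      linear_combination this - P y * hce
    have e5 := cancel_linear hPc (continuous_hx a c) e4 c
    exact hPc0 (e5.trans h2)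
  · obtain ⟨P1, hP1, hP1c, hP⟩ := hsimple c hq
    have hq2 := hsep c hq
    have e1 : ∀ y, (y - c) * (((y - e) ^ 2 - ε) * P1 y) =
        (y - c) * (H183.hx a c y * (y - c)) := by
      intro y
      have h3 := ha y
      rw [key y, hP y] at h3
      linear_combination -h3
    have hc1 : Continuous fun y => H183.hx a c y * (y - c) :=
      (continuous_hx a c).mul (by fun_prop)
    have e2 : ((c - e) ^ 2 - ε) * P1 c = H183.hx a c c * (c - c) :=
      cancel_linear (f := fun y => ((y - e) ^ 2 - ε) * P1 y) (by fun_prop) hc1 e1 c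
    rw [sub_self, mul_zero] at e2
    rcases mul_eq_zero.1 e2 with h | h
    · exact hq2 h
    · exact hP1c h

/-! ### Region1 -/

variable (R : H95.Region1)

/-- The polynomial. -/
def pol1 (p : R.Sp) : Polynomial ℂ :=
  ((Polynomial.X - Polynomial.C (R.ctr p)) ^ 2 - Polynomial.C (R.eps p)) *
      ∏ l : Fin 4, (Polynomial.X - Polynomial.C (R.oth p l))

theorem monic_quad (e ε : ℂ) :
    ((Polynomial.X - Polynomial.C e) ^ 2 - Polynomial.C ε : Polynomial ℂ).Monic ∧
      ((Polynomial.X - Polynomial.C e) ^ 2 - Polynomial.C ε : Polynomial ℂ).natDegree = 2 := by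
  have h1 : ((Polynomial.X - Polynomial.C e) ^ 2 : Polynomial ℂ).Monic :=
    (Polynomial.monic_X_sub_C e).pow 2
  have h2 : ((Polynomial.X - Polynomial.C e) ^ 2 : Polynomial ℂ).natDegree = 2 := by
    rw [(Polynomial.monic_X_sub_C e).natDegree_pow, Polynomial.natDegree_X_sub_C]
  have h3 : (Polynomial.C ε : Polynomial ℂ).degree <
      ((Polynomial.X - Polynomial.C e) ^ 2 : Polynomial ℂ).degree := by
    rw [Polynomial.degree_eq_natDegree h1.ne_zero, h2]
    exact lt_of_le_of_lt Polynomial.degree_C_le (by norm_num)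
  exact ⟨h1.sub_of_left h3, by rw [Polynomial.natDegree_sub_eq_left_of_natDegree_lt
    (by rw [h2, Polynomial.natDegree_C]; norm_num), h2]⟩

theorem monic_pol1 (p : R.Sp) : (pol1 R p).Monic ∧ (pol1 R p).natDegree = 6 := by
  have h1 := monic_quad (R.ctr p) (R.eps p)
  have h2 : (∏ l : Fin 4, (Polynomial.X - Polynomial.C (R.oth p l))).Monic :=
    Polynomial.monic_prod_of_monic _ _ fun l _ => Polynomial.monic_X_sub_C _
  have h3 : (∏ l : Fin 4, (Polynomial.X - Polynomial.C (R.oth p l))).natDegree = 4 := by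
    rw [Polynomial.natDegree_prod_of_monic _ _ fun l _ => Polynomial.monic_X_sub_C _]
    simp
  exact ⟨h1.1.mul h2, by rw [pol1, h1.1.natDegree_mul h2, h1.2, h3]⟩

theorem sx_cf (p : R.Sp) (x : ℂ) : H183.sx (R.cf p) x =
    ((x - R.ctr p) ^ 2 - R.eps p) * ∏ l : Fin 4, (x - R.oth p l) := by
  have h := sx_coeff (monic_pol1 R p).1 (monic_pol1 R p).2 x
  refine Eq.trans ?_ (h.trans ?_)
  · rfl
  · simp [pol1, Polynomial.eval_prod]

theorem sw_cf (p : R.Sp) (w : ℂ) : H183.sw (R.cf p) w =
    ((1 - R.ctr p * w) ^ 2 - R.eps p * w ^ 2) * ∏ l : Fin 4, (1 - R.oth p l * w) := by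
  by_cases hw : w = 0
  · subst hw
    simp [H183.sw]
  · have h := H183.sx_inv (R.cf p) hw
    rw [sx_cf] at h
    have h6 : w ^ 6 ≠ 0 := pow_ne_zero 6 hw
    rw [eq_div_iff h6] at h
    rw [← h]
    simp only [Fin.prod_univ_four]
    field_simp

variable {R} {p : R.Sp}

theorem cf_mem_K6
    (h1 : ∀ l, R.ctr p ≠ R.oth p l ∧ ‖R.eps p‖ < ‖R.ctr p - R.oth p l‖ ^ 2 / 4096)
    (h2 : ∀ l l', R.oth p l = R.oth p l' → l = l') : R.cf p ∈ H183.K6 := by
  refine mem_K6_of_factor (e := R.ctr p) (ε := R.eps p)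
    (P := fun x => ∏ l : Fin 4, (x - R.oth p l)) (by fun_prop) (sx_cf R p) ?_ ?_
  · intro x hx hq
    obtain ⟨l, -, hl⟩ := Finset.prod_eq_zero_iff.1 hx
    have hxl : x = R.oth p l := sub_eq_zero.1 hl
    have h3 := (h1 l).2
    have h4 : R.eps p = (R.oth p l - R.ctr p) ^ 2 := by
      rw [← hxl]; linear_combination -hq
    rw [h4, norm_pow, norm_sub_rev] at h3
    have h5 : 0 ≤ ‖R.ctr p - R.oth p l‖ ^ 2 := by positivity
    linarith
  · intro x hx
    obtain ⟨l, -, hl⟩ := Finset.prod_eq_zero_iff.1 hx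
    have hxl : x = R.oth p l := sub_eq_zero.1 hl
    refine ⟨fun y => ∏ l' ∈ Finset.univ.erase l, (y - R.oth p l'), by fun_prop, ?_, ?_⟩
    · rw [Finset.prod_ne_zero_iff]
      intro l' hl' he
      rw [hxl] at he
      exact (Finset.ne_of_mem_erase hl') (h2 l' l (sub_eq_zero.1 he).symm)
    · intro y
      rw [hxl]
      exact (Finset.mul_prod_erase _ _ (Finset.mem_univ l)).symm

theorem XX_mul_YY (p : R.Sp) (i : ℕ) : R.XX p i * R.YY p i = R.eps p := by
  simp only [H95.Region1.XX, H95.Region1.YY, H95.Region1.eps, ← Finset.prod_mul_distrib]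
  refine Finset.prod_congr rfl fun g _ => ?_
  by_cases h : (g : ℕ) ≤ i
  · rw [if_pos h, if_neg (not_lt.2 h), mul_one]
  · rw [if_neg h, if_pos (not_le.1 h), one_mul]

theorem pos_neck {j : H95.L} (hj : R.nk j = true) :
    R.pos p j = R.ctr p + (R.XX p (R.rk j) + R.YY p (R.rk j)) / 2 := by
  unfold H95.Region1.pos
  rw [dif_neg (by simp [hj])]

theorem pos_core {j : H95.L} (hj : R.nk j = false) :
    R.pos p j = p.2 (Sum.inl ⟨j, hj⟩) := by
  unfold H95.Region1.pos
  rw [dif_pos hj]

theorem sht_neck {j : H95.L} (hj : R.nk j = true) (g : ℂ) (v : H95.L → ℂ) :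
    R.sht p g v j = g * (∏ l : Fin 4,
      H95.csq ((R.pos p j - R.oth p l) / (R.ctr p - R.oth p l))) *
      (R.XX p (R.rk j) - R.YY p (R.rk j)) / 2 := by
  unfold H95.Region1.sht
  rw [if_pos hj]

theorem sht_core {j : H95.L} (hj : R.nk j = false) (g : ℂ) (v : H95.L → ℂ) :
    R.sht p g v j = v j := by
  unfold H95.Region1.sht
  rw [if_neg (by simp [hj])]

theorem neck_quad {j : H95.L} (hj : R.nk j = true) :
    (R.pos p j - R.ctr p) ^ 2 - R.eps p =
      ((R.XX p (R.rk j) - R.YY p (R.rk j)) / 2) ^ 2 := by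
  rw [pos_neck hj, ← XX_mul_YY p (R.rk j)]
  ring

/-- The marks are on the curve. -/
theorem sht_sq {S : H95.L → Bool} (hS : ∀ j, S j = true → R.nk j = false)
    (h1 : ∀ l, R.ctr p ≠ R.oth p l) {g : ℂ} {v : H95.L → ℂ} (hs : R.isSheet S p g v)
    (j : H95.L) : (R.sht p g v j) ^ 2 = H95.pol (S j) (R.cf p) (R.pos p j) := by
  cases hj : R.nk j with
  | false => rw [sht_core hj]; exact hs.2 j hj
  | true =>
    have hSj : S j = false := by
      cases h : S j with
      | false => rfl
      | true => rw [hS j h] at hj; exact absurd hj (by simp)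
    rw [sht_neck hj, H95.pol, if_neg (by simp [hSj]), H724.sx_eq, sx_cf, neck_quad hj, div_pow,
      mul_pow, mul_pow, hs.1, ← Finset.prod_pow]
    simp only [csq_sq]
    have e : ∏ l : Fin 4, (R.pos p j - R.oth p l) = (∏ l : Fin 4, (R.ctr p - R.oth p l)) *
        ∏ l : Fin 4, ((R.pos p j - R.oth p l) / (R.ctr p - R.oth p l)) := by
      rw [← Finset.prod_mul_distrib]
      refine Finset.prod_congr rfl fun l _ => ?_
      have := sub_ne_zero.2 (h1 l)
      field_simp
    rw [e]
    ring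

end Vale.Agent.P273.H883

end
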