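import Vale.Agent.P273.H883.Good1
import Vale.Agent.P273.H948.RealOf
import Vale.Agent.P273.H888.Real

/-! One node: existence of the stable family near an admissible point. -/

noncomputable section

namespace Vale.Agent.P273.H883

open Set Filter
open scoped Topology
open Vale.Agent.P273
open Vale.Agent.P273.H183 (Fam tot startS)
open Vale.Agent.P273.H507 (Ctr)
open Vale.Agent.P273.H888 (posP)

variable {n : ℕ} {R : H95.Region1} {S : H95.L → Bool} {κ : (Fin n → ℂ) ≃L[ℂ] R.Sp}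
  {p0 : R.Sp} {g0 : ℂ} {v0 : H95.L → ℂ}

/-- **One node: the stable family with its contraction to the start family**, near `c`. -/
theorem exists_ctr1 (hS : ∀ j, S j = true → R.nk j = false)
    {c : Fin n → ℂ} (hc : κ c = p0) (h : R.ok S p0 g0 v0) :
    ∃ (W : Set (Fin n → ℂ)) (D : LocG W (ea1 R κ) S (za1 R κ) (V1 R S κ p0 g0 v0)),
      (∀ b ∈ W, R.ok S (κ b) (gb R p0 g0 (κ b)) (vb R S p0 v0 (κ b))) ∧
      ∃ C : Fam H95.L n, c ∈ C.B ∧ C.B ⊆ W ∧ C.IsStable ∧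
        ∃ (_ : Nonempty (tot W (ea1 R κ))) (r : C.X → tot W (ea1 R κ)),
          Ctr C (startS W (ea1 R κ) D.opn D.ana D.k6)
            (fun j => posP (S j) (za1 R κ j) (V1 R S κ p0 g0 v0 j)) r := by
  obtain ⟨W, D, hcW, hok⟩ := exists_locG (κ := κ) hS hc h
  have hne := D.nonempty hcW
  have hsec : ∀ j, H948.IsSec (startS W (ea1 R κ) D.opn D.ana D.k6) W
      (posP (S j) (za1 R κ j) (V1 R S κ p0 g0 v0 j)) := fun j =>
    H888.isSec_posP D.opn D.ana D.k6 D.opn subset_rfl (D.anz j) (D.anv j) (D.sq j)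
  obtain ⟨C, h1, h2, h3, r, h4⟩ := H948.exists_ctr_start D.opn D.ana D.k6
    (P := fun j => posP (S j) (za1 R κ j) (V1 R S κ p0 g0 v0 j)) hsec hcW
    (good_start1 hS hc D hcW hok h)
  exact ⟨W, D, hok, C, h1, h2, h3, hne, r, h4⟩

/-- The sheets along the branch through `g0`, `v0` at `p0`. -/
def sg1 (R : H95.Region1) (S : H95.L → Bool) (p0 : R.Sp) (g0 : ℂ) (v0 : H95.L → ℂ) (p : R.Sp)
    (j : H95.L) : ℂ :=
  R.sht p (gb R p0 g0 p) (vb R S p0 v0 p) j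

/-- **(A3): one node.** -/
theorem real1 (κ : (Fin n → ℂ) ≃L[ℂ] R.Sp) (hS : ∀ j, S j = true → R.nk j = false)
    (h : R.ok S p0 g0 v0) : ∃ C : Fam H95.L n,
      H888.Real κ R.psi S (sg1 R S p0 g0 v0) C ∧ κ.symm p0 ∈ C.B ∧
      ∀ b ∈ C.B, R.ok S (κ b) (gb R p0 g0 (κ b)) (vb R S p0 v0 (κ b)) := by
  obtain ⟨W, D, hok, C, h1, h2, h3, hne, r, h4⟩ :=
    exists_ctr1 (κ := κ) hS (κ.apply_symm_apply p0) h
  exact ⟨C, ⟨h3, ⟨W, D.opn, D.ana, D.k6, hne, r, h2, h4⟩, fun j b hb => D.anz j b (h2 hb),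
    fun j b hb => D.anv j b (h2 hb), fun j b hb => D.sq j b (h2 hb)⟩, h1,
    fun b hb => hok b (h2 hb)⟩

end Vale.Agent.P273.H883

end
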